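import Mathlib

/-! P096 TEST: bounded polynomial calculus agreeing with a given polynomial near `[-2, 2]`. -/

namespace Vale.Agent.P096.Full.Test

universe u

/-- The coefficient mass of a polynomial. -/
noncomputable def coefMass (p : Polynomial ℝ) : ℝ :=
  ∑ i ∈ Finset.range (p.natDegree + 1), |p.coeff i|

lemma abs_eval_le (p : Polynomial ℝ) {t M : ℝ} (hM : 1 ≤ M) (ht : |t| ≤ M) :
    |p.eval t| ≤ coefMass p * M ^ p.natDegree := by
  rw [Polynomial.eval_eq_sum_range, coefMass, Finset.sum_mul]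
  refine (Finset.abs_sum_le_sum_abs _ _).trans (Finset.sum_le_sum fun i hi => ?_)
  rw [abs_mul, abs_pow]
  refine mul_le_mul_of_nonneg_left ?_ (abs_nonneg _)
  exact (pow_le_pow_left₀ (abs_nonneg t) ht i).trans
    (pow_le_pow_right₀ hM (Nat.lt_succ_iff.1 (Finset.mem_range.1 hi)))

/-- A polynomial is almost as small a little beyond `[-2, 2]`. -/
lemma exists_wider (p : Polynomial ℝ) {c ε : ℝ} (hε : 0 < ε)
    (h : ∀ t ∈ Set.Icc (-2 : ℝ) 2, |p.eval t| ≤ c) :
    ∃ b, 2 < b ∧ ∀ t ∈ Set.Icc (-b) b, |p.eval t| ≤ c + ε := by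
  have hc := p.continuous
  obtain ⟨δ₁, h₁, h₁'⟩ := Metric.continuous_iff.1 hc 2 ε hε
  obtain ⟨δ₂, h₂, h₂'⟩ := Metric.continuous_iff.1 hc (-2) ε hε
  refine ⟨2 + min δ₁ δ₂ / 2, by have := lt_min h₁ h₂; linarith, fun t ht => ?_⟩
  have hm := lt_min h₁ h₂
  rcases le_total t (-2) with h3 | h3
  · have := h₂' t (by
      rw [Real.dist_eq, abs_of_nonpos (by linarith)]
      have := min_le_right δ₁ δ₂; linarith [ht.1])
    rw [Real.dist_eq] at this
    have h4 := h (-2) ⟨le_rfl, by norm_num⟩
    have := abs_sub_abs_le_abs_sub (p.eval t) (p.eval (-2))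
    linarith
  rcases le_total t 2 with h4 | h4
  · linarith [h t ⟨h3, h4⟩]
  · have := h₁' t (by
      rw [Real.dist_eq, abs_of_nonneg (by linarith)]
      have := min_le_left δ₁ δ₂; linarith [ht.2])
    rw [Real.dist_eq] at this
    have h5 := h 2 ⟨by norm_num, le_rfl⟩
    have := abs_sub_abs_le_abs_sub (p.eval t) (p.eval 2)
    linarith

/-- The tail constant. -/
noncomputable def tail (p : Polynomial ℝ) (b : ℝ) (m : ℕ) : ℝ :=
  2 * coefMass p * (b ^ 2) ^ p.natDegree / (b ^ 2) ^ m

lemma tendsto_tail (p : Polynomial ℝ) {b : ℝ} (hb : 2 < b) :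
    Filter.Tendsto (fun m => tail p b m * 4 ^ m) Filter.atTop (nhds 0) := by
  have h : ∀ m : ℕ, tail p b m * 4 ^ m =
      2 * coefMass p * (b ^ 2) ^ p.natDegree * (4 / b ^ 2) ^ m := fun m => by
    rw [tail, div_pow]; ring
  simp only [h]
  suffices h4 : 4 / b ^ 2 < 1 by
    simpa using (tendsto_pow_atTop_nhds_zero_of_lt_one (by positivity) h4).const_mul
      (2 * coefMass p * (b ^ 2) ^ p.natDegree)
  rw [div_lt_one (by positivity)]
  nlinarith

variable {E : Type u} [NormedAddCommGroup E] [InnerProductSpace ℂ E] [CompleteSpace E]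

/-- A bounded polynomial calculus close to `p` on vectors with small high powers. -/
theorem exists_clip (p : Polynomial ℝ) {b c : ℝ} (hb : 1 ≤ b)
    (hp : ∀ t ∈ Set.Icc (-b) b, |p.eval t| ≤ c) {S : E →L[ℂ] E} (hS : IsSelfAdjoint S)
    {m : ℕ} (hm : p.natDegree ≤ m) {δ : ℝ} (hδ : 0 < δ) :
    ∃ q : Polynomial ℂ, ‖Polynomial.aeval S q‖ ≤ c + δ ∧
      ∀ x, ‖Polynomial.aeval S q x - Polynomial.aeval S (p.map (algebraMap ℝ ℂ)) x‖ ≤
        δ * ‖x‖ + tail p b m * ‖(S ^ (2 * m)) x‖ := by
  have hc : 0 ≤ c := (abs_nonneg _).trans (hp 0 ⟨by linarith, by linarith⟩)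
  set f : ℝ → ℝ := fun t => p.eval (max (-b) (min t b)) with hf
  have cf : Continuous f := p.continuous.comp (by fun_prop)
  have hfb : ∀ t, |f t| ≤ c := fun t =>
    hp _ ⟨le_max_left _ _, max_le (by linarith) (min_le_right _ _)⟩
  set h : ℝ → ℝ := fun t => (p.eval t - f t) / (max (t ^ 2) (b ^ 2)) ^ m with hh
  have hb2 : 1 ≤ b ^ 2 := one_le_pow₀ hb
  have hpos : ∀ t : ℝ, 0 < (max (t ^ 2) (b ^ 2)) ^ m := fun t =>
    pow_pos (lt_of_lt_of_le (by linarith) (le_max_right _ _)) m
  have chh : Continuous h := by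
    refine Continuous.div (p.continuous.sub cf) ?_ fun t => (hpos t).ne'
    fun_prop
  have hprod : ∀ t, p.eval t - f t = h t * t ^ (2 * m) := by
    intro t
    rcases le_total (t ^ 2) (b ^ 2) with h2 | h2
    · have ht : |t| ≤ b := abs_le_of_sq_le_sq h2 (by linarith)
      obtain ⟨h3, h4⟩ := abs_le.1 ht
      have : f t = p.eval t := by
        simp only [hf, min_eq_left h4, max_eq_right h3]
      simp [hh, this]
    · rw [hh]
      simp only [max_eq_left h2, ← pow_mul]
      have hpt := hpos t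
      rw [max_eq_left h2, ← pow_mul] at hpt
      rw [div_mul_cancel₀ _ hpt.ne']
  have hA : 0 ≤ coefMass p := Finset.sum_nonneg fun i _ => abs_nonneg _
  have hbound : ∀ t, |h t| ≤ tail p b m := by
    intro t
    set M := max (t ^ 2) (b ^ 2) with hM
    have hM1 : 1 ≤ M := hb2.trans (le_max_right _ _)
    have htM : |t| ≤ M := by
      rcases le_total |t| 1 with h1 | h1
      · exact h1.trans hM1
      · refine le_trans ?_ (le_max_left _ _)
        rw [← sq_abs]; nlinarith
    have h1 := abs_eval_le p hM1 htM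
    have h2 : |f t| ≤ coefMass p * M ^ p.natDegree := by
      refine abs_eval_le p hM1 ((abs_le.2 ⟨le_max_left _ _, max_le (by linarith)
        (min_le_right _ _)⟩).trans (le_trans ?_ (le_max_right _ _)))
      nlinarith
    have hk : (b ^ 2) ^ (m - p.natDegree) ≤ M ^ (m - p.natDegree) :=
      pow_le_pow_left₀ (by positivity) (le_max_right _ _) _
    rw [hh]
    simp only
    rw [abs_div, abs_of_pos (hpos t), tail, div_le_div_iff₀ (hpos t) (by positivity)]
    calc |p.eval t - f t| * (b ^ 2) ^ m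
        ≤ (2 * coefMass p * M ^ p.natDegree) *
            ((b ^ 2) ^ p.natDegree * M ^ (m - p.natDegree)) := by
          gcongr
          · linarith [abs_sub (p.eval t) (f t)]
          · calc (b ^ 2) ^ m = (b ^ 2) ^ p.natDegree * (b ^ 2) ^ (m - p.natDegree) := by
                  rw [← pow_add, Nat.add_sub_cancel' hm]
              _ ≤ _ := by gcongr
      _ = _ := by
          have e : M ^ p.natDegree * M ^ (m - p.natDegree) = M ^ m := by
            rw [← pow_add, Nat.add_sub_cancel' hm]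
          calc _ = 2 * coefMass p * (b ^ 2) ^ p.natDegree *
                (M ^ p.natDegree * M ^ (m - p.natDegree)) := by ring
            _ = _ := by rw [e]
  obtain ⟨π, hπ⟩ := exists_polynomial_near_of_continuousOn (-(‖S‖)) ‖S‖ f cf.continuousOn δ hδ
  have hspec : ∀ t ∈ spectrum ℝ S, |π.eval t - f t| ≤ δ := by
    intro t ht
    refine (hπ t ?_).le
    have h1 := spectrum.norm_le_norm_mul_of_mem ht
    rw [Real.norm_eq_abs] at h1
    exact abs_le.1 (h1.trans (mul_le_of_le_one_right (norm_nonneg _)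
      ContinuousLinearMap.norm_id_le))
  have ev : ∀ r : Polynomial ℝ,
      Polynomial.aeval S (r.map (algebraMap ℝ ℂ)) = cfc (fun t => r.eval t) S := fun r => by
    rw [Polynomial.aeval_map_algebraMap, cfc_polynomial r S]
  refine ⟨π.map (algebraMap ℝ ℂ), ?_, fun x => ?_⟩
  · rw [ev]
    refine norm_cfc_le (by linarith) fun t ht => ?_
    have := hspec t ht
    have := hfb t
    have := abs_sub_abs_le_abs_sub (π.eval t) (f t)
    rw [Real.norm_eq_abs]
    linarith
  · rw [ev, ev]
    have e1 : cfc (fun t => π.eval t) S - cfc (fun t => p.eval t) S =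
        cfc (fun t => π.eval t - f t) S - cfc h S * S ^ (2 * m) := by
      rw [← cfc_pow_id (R := ℝ) S (2 * m), ← cfc_mul h _ S chh.continuousOn (by fun_prop),
        ← cfc_sub (fun t => π.eval t) (fun t => p.eval t) S (by fun_prop) (by fun_prop),
        ← cfc_sub (fun t => π.eval t - f t) (fun t => h t * t ^ (2 * m)) S (by fun_prop)
          (by fun_prop)]
      refine cfc_congr fun t _ => ?_
      rw [← hprod t]
      ring
    rw [← sub_apply, e1, sub_apply]
    refine (norm_sub_le _ _).trans (add_le_add ?_ ?_)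
    · exact le_trans ((cfc (fun t => π.eval t - f t) S).le_opNorm x)
        (mul_le_mul_of_nonneg_right (norm_cfc_le hδ.le fun t ht => by
          rw [Real.norm_eq_abs]; exact hspec t ht) (norm_nonneg _))
    · exact le_trans ((cfc h S).le_opNorm _)
        (mul_le_mul_of_nonneg_right (norm_cfc_le ((abs_nonneg _).trans (hbound 0)) fun t _ => by
          rw [Real.norm_eq_abs]; exact hbound t) (norm_nonneg _))

end Vale.Agent.P096.Full.Test
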