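import Vale.Agent.P096.Full.Test.Bridge
import Vale.Agent.P096.Full.Test.Clip

/-! P096 TEST: the free test follows from the vector defect, through finite groups. -/

open scoped InnerProductSpace ComplexConjugate
open Filter Topology

namespace Vale.Agent.P096.Full.Test

set_option linter.unusedSectionVars false

universe u

/-! ### Conjugation by an involution -/

lemma aeval_conj {E : Type u} [NormedAddCommGroup E] [InnerProductSpace ℂ E]
    {R T : E →L[ℂ] E} (hR : R * R = 1) (p : Polynomial ℂ) :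
    Polynomial.aeval (R * T * R) p = R * Polynomial.aeval T p * R := by
  induction p using Polynomial.induction_on with
  | C c => simp [Algebra.algebraMap_eq_smul_one, hR]
  | add p q hp hq => simp [hp, hq, mul_add, add_mul]
  | monomial n c h =>
    rw [pow_succ, ← mul_assoc, map_mul, h, map_mul (Polynomial.aeval T) (Polynomial.C c * _),
      Polynomial.aeval_X, Polynomial.aeval_X]
    generalize Polynomial.aeval T (Polynomial.C c * Polynomial.X ^ n) = w
    calc R * w * R * (R * T * R) = R * w * (R * R) * T * R := by noncomm_ring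
      _ = R * (w * T) * R := by rw [hR]; noncomm_ring

variable {K : Type u} [NormedAddCommGroup K] [InnerProductSpace ℂ K] [CompleteSpace K]
  {Γ : Type u} [Fintype Γ] [Group Γ] {ι : Type u} [Fintype ι] {L L' n : ℕ}

/-- The finite model of a number of letters. -/
structure Model (bar : ι → ι) (L L' n : ℕ) (φ : Many ι n → Γ) : Prop where
  pos : 0 < n
  le : L ≤ L'
  invol : ∀ i, bar (bar i) = i
  inv : ∀ j, φ (manyBar bar n j) = (φ j)⁻¹
  sep : Sep (manyBar bar n) φ L'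

variable {bar : ι → ι} {φ : Many ι n → Γ}

lemma Model.invol' (hM : Model bar L L' n φ) (p : Many ι n) :
    manyBar bar n (manyBar bar n p) = p :=
  Prod.ext (hM.invol p.1) rfl

/-- The image of a Fock vector in the model. -/
noncomputable def theta (bar : ι → ι) (L' : ℕ) (φ : Many ι n → Γ) :
    Fock K ι L →L[ℂ] Grp K Γ :=
  (emb (L := L') (manyBar bar n) φ).comp (liftOp n)

/-- The left operator of the model. -/
noncomputable def modelOp (φ : Many ι n → Γ) (a : ι → (K →L[ℂ] K)) : Grp K Γ →L[ℂ] Grp K Γ :=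
  sumL φ fun p : Many ι n => a p.1

/-- The free operator compressed to reduced words. -/
noncomputable def redOp (bar : ι → ι) (L' n : ℕ) (a : ι → (K →L[ℂ] K)) :
    Fock K (Many ι n) L' →L[ℂ] Fock K (Many ι n) L' :=
  semiL (fun p : Many ι n => a p.1) * projRed (manyBar bar n)

lemma norm_theta_le (hM : Model bar L L' n φ) (ξ : Fock K ι L) :
    ‖theta bar L' φ ξ‖ ≤ ‖ξ‖ := by
  show ‖emb (manyBar bar n) φ (liftOp n ξ)‖ ≤ _
  rw [norm_emb hM.sep, ← norm_liftOp (L' := L') hM.pos hM.le ξ]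
  exact norm_projRed_apply_le _ _

lemma norm_le_theta (hM : Model bar L L' n φ) (ξ : Fock K ι L) :
    ‖ξ‖ ≤ ‖theta bar L' φ ξ‖ + Real.sqrt (L' / n : ℝ) * ‖ξ‖ := by
  show ‖ξ‖ ≤ ‖emb (manyBar bar n) φ (liftOp n ξ)‖ + _
  rw [norm_emb hM.sep]
  have h1 := norm_sub_norm_le (liftOp (L' := L') n ξ)
    (projRed (manyBar bar n) (liftOp n ξ))
  rw [norm_liftOp hM.pos hM.le] at h1
  have h2 : ‖liftOp (L' := L') n ξ - projRed (manyBar bar n) (liftOp n ξ)‖ ≤
      Real.sqrt (L' / n : ℝ) * ‖ξ‖ := by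
    rw [← pow_le_pow_iff_left₀ (norm_nonneg _) (by positivity) two_ne_zero, mul_pow,
      Real.sq_sqrt (by positivity)]
    exact norm_sub_projRed bar hM.pos hM.le ξ
  linarith

section

variable {a : ι → (K →L[ℂ] K)} (h1 : ∀ i, ‖a i‖ ≤ 1) (h2 : ∀ i, a (bar i) = star (a i))

include h1 in
lemma norm_redOp_le : ‖redOp bar L' n a‖ ≤ 2 := by
  refine ContinuousLinearMap.opNorm_le_bound _ zero_le_two fun x => ?_
  exact ((semiL fun p : Many ι n => a p.1).le_opNorm _).trans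
    (mul_le_mul (norm_semiL_le _ fun p => h1 p.1) (norm_projRed_apply_le _ _) (norm_nonneg _)
      zero_le_two)

include h2 in
lemma modelOp_pow (hM : Model bar L L' n φ) {j : ℕ} {η : Fock K (Many ι n) L'}
    (hη : Below j η) : ∀ k : ℕ, j + k ≤ L' →
      Below (j + k) ((redOp bar L' n a ^ k) η) ∧
      (modelOp φ a ^ k) (emb (manyBar bar n) φ η) =
        emb (manyBar bar n) φ ((redOp bar L' n a ^ k) η) := by
  intro k
  induction k with
  | zero =>
    intro _
    simp [hη]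
  | succ k ih =>
    intro hk
    obtain ⟨hb, he⟩ := ih (by omega)
    rw [pow_succ' (redOp bar L' n a), pow_succ' (modelOp φ a), comp_mul_apply, comp_mul_apply, he,
      redOp, comp_mul_apply]
    refine ⟨(hb.projRed).semiL _, ?_⟩
    exact sumL_emb (a := fun p : Many ι n => a p.1) hM.invol' hM.inv (fun p => h2 p.1)
      (k := j + k) (by omega) hb

lemma below_semiL_pow {j : ℕ} {ξ : Fock K ι L} (hξ : Below j ξ) :
    ∀ k : ℕ, Below (j + k) ((semiL a ^ k) ξ)
  | 0 => hξ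
  | k + 1 => by
    rw [pow_succ']
    exact (below_semiL_pow hξ k).semiL a

include h1 in
lemma redOp_pow_sub (hM : Model bar L L' n φ) {j : ℕ} {ξ : Fock K ι L} (hξ : Below j ξ) :
    ∀ k : ℕ, j + k ≤ L →
      ‖(redOp bar L' n a ^ k) (liftOp n ξ) - liftOp n ((semiL a ^ k) ξ)‖ ≤
        k * 2 ^ k * (Real.sqrt (L' / n : ℝ) * ‖ξ‖)
  | 0, _ => by simp
  | k + 1, hk => by
    have ih := redOp_pow_sub hM hξ k (by omega)
    set η := (semiL a ^ k) ξ with hη
    have hb : Below (j + k) η := below_semiL_pow hξ k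
    have hn : ‖η‖ ≤ 2 ^ k * ‖ξ‖ := by
      refine ((semiL a ^ k).le_opNorm ξ).trans (mul_le_mul_of_nonneg_right ?_ (norm_nonneg _))
      rcases Nat.eq_zero_or_pos k with rfl | hk0
      · simp only [pow_zero]; exact ContinuousLinearMap.norm_id_le
      · exact (norm_pow_le' _ hk0).trans (pow_le_pow_left₀ (norm_nonneg _) (norm_semiL_le a h1) k)
    rw [pow_succ', pow_succ']
    show ‖redOp bar L' n a ((redOp bar L' n a ^ k) (liftOp n ξ)) - liftOp n (semiL a η)‖ ≤ _
    rw [← semiL_liftOp hM.pos a (show j + k < L by omega) hM.le hb]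
    set P := projRed (K := K) (L := L') (manyBar bar n)
    set S := semiL (K := K) (L := L') fun p : Many ι n => a p.1
    have hP : ‖liftOp (L' := L') n η - P (liftOp n η)‖ ≤ Real.sqrt (L' / n : ℝ) * ‖η‖ := by
      rw [← pow_le_pow_iff_left₀ (norm_nonneg _) (by positivity) two_ne_zero, mul_pow,
        Real.sq_sqrt (by positivity)]
      exact norm_sub_projRed bar hM.pos hM.le η
    have hS : ‖S‖ ≤ 2 := norm_semiL_le _ fun p => h1 p.1
    calc ‖S (P ((redOp bar L' n a ^ k) (liftOp n ξ))) - S (liftOp n η)‖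
        ≤ ‖S (P ((redOp bar L' n a ^ k) (liftOp n ξ) - liftOp n η))‖ +
            ‖S (liftOp n η - P (liftOp n η))‖ := by
          refine (le_of_eq (congrArg _ ?_)).trans (norm_sub_le _ _)
          simp only [map_sub]; abel
      _ ≤ 2 * (k * 2 ^ k * (Real.sqrt (L' / n : ℝ) * ‖ξ‖)) +
            2 * (Real.sqrt (L' / n : ℝ) * (2 ^ k * ‖ξ‖)) := by
          refine add_le_add ((S.le_opNorm _).trans (mul_le_mul hS ?_ (norm_nonneg _) zero_le_two))
            ((S.le_opNorm _).trans (mul_le_mul hS (hP.trans ?_) (norm_nonneg _) zero_le_two))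
          · exact (norm_projRed_apply_le _ _).trans ih
          · gcongr
      _ = _ := by push_cast; ring

/-- The constant in the comparison of a polynomial in the free and in the model operator. -/
noncomputable def polyCst (p : Polynomial ℝ) : ℝ :=
  ∑ k ∈ Finset.range (p.natDegree + 1), |p.coeff k| * (k * 2 ^ k)

include h1 h2 in
lemma poly_model (hM : Model bar L L' n φ) (p : Polynomial ℝ) {j : ℕ} (hj : j + p.natDegree ≤ L)
    {ξ : Fock K ι L} (hξ : Below j ξ) :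
    ‖Polynomial.aeval (modelOp φ a) (p.map (algebraMap ℝ ℂ)) (theta bar L' φ ξ) -
        theta bar L' φ (Polynomial.aeval (semiL a) (p.map (algebraMap ℝ ℂ)) ξ)‖ ≤
      polyCst p * (Real.sqrt (L' / n : ℝ) * ‖ξ‖) := by
  have hd : (p.map (algebraMap ℝ ℂ)).natDegree < p.natDegree + 1 :=
    Nat.lt_succ_of_le Polynomial.natDegree_map_le
  rw [Polynomial.aeval_eq_sum_range' hd, Polynomial.aeval_eq_sum_range' hd, sum_apply, sum_apply,
    map_sum, ← Finset.sum_sub_distrib, polyCst, Finset.sum_mul]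
  refine (norm_sum_le _ _).trans (Finset.sum_le_sum fun k hk => ?_)
  have hk' : j + k ≤ L := by
    have := Finset.mem_range.1 hk; omega
  rw [Polynomial.coeff_map, smul_apply, smul_apply, map_smul, ← smul_sub, norm_smul,
    Complex.coe_algebraMap, Complex.norm_real, Real.norm_eq_abs, mul_assoc |p.coeff k|]
  refine mul_le_mul_of_nonneg_left ?_ (abs_nonneg _)
  show ‖(modelOp φ a ^ k) (emb (manyBar bar n) φ (liftOp n ξ)) -
    emb (manyBar bar n) φ (liftOp n ((semiL a ^ k) ξ))‖ ≤ _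
  rw [(modelOp_pow h2 hM hξ.liftOp k (hk'.trans hM.le)).2, ← map_sub, norm_emb hM.sep]
  exact (norm_projRed_apply_le _ _).trans (redOp_pow_sub h1 hM hξ k hk')

include h1 h2 in
lemma pow_model (hM : Model bar L L' n φ) {j : ℕ} {ξ : Fock K ι L} (hξ : Below j ξ) {k : ℕ}
    (hk : j + k ≤ L') : ‖(modelOp φ a ^ k) (theta bar L' φ ξ)‖ ≤ 2 ^ k * ‖ξ‖ := by
  show ‖(modelOp φ a ^ k) (emb (manyBar bar n) φ (liftOp n ξ))‖ ≤ _
  rw [(modelOp_pow h2 hM hξ.liftOp k hk).2, norm_emb hM.sep]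
  refine (norm_projRed_apply_le _ _).trans
    (((redOp bar L' n a ^ k).le_opNorm _).trans ?_)
  rw [norm_liftOp hM.pos hM.le]
  refine mul_le_mul_of_nonneg_right ?_ (norm_nonneg _)
  rcases Nat.eq_zero_or_pos k with rfl | hk0
  · simp only [pow_zero]; exact ContinuousLinearMap.norm_id_le
  · exact (norm_pow_le' _ hk0).trans (pow_le_pow_left₀ (norm_nonneg _) (norm_redOp_le h1) k)

include h1 h2 in
/-- A clipped polynomial of the model operator follows the free one. -/
lemma clip_model (hM : Model bar L L' n φ) {m : ℕ} {ε bs : ℝ} {s : Polynomial ℝ}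
    {q : Polynomial ℂ} (hε : 0 ≤ ε) (hbs : 2 < bs) (hts : tail s bs m * 4 ^ m < ε)
    (hps : polyCst s * Real.sqrt (L' / n : ℝ) < ε) (hm : L + 2 * m ≤ L')
    (hq : ∀ x, ‖Polynomial.aeval (modelOp φ a) q x -
        Polynomial.aeval (modelOp φ a) (s.map (algebraMap ℝ ℂ)) x‖ ≤
          ε * ‖x‖ + tail s bs m * ‖(modelOp φ a ^ (2 * m)) x‖)
    {j : ℕ} {ξ : Fock K ι L} (hξ : Below j ξ) (hj : j + s.natDegree ≤ L) :
    ‖Polynomial.aeval (modelOp φ a) q (theta bar L' φ ξ) -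
      theta bar L' φ (Polynomial.aeval (semiL a) (s.map (algebraMap ℝ ℂ)) ξ)‖ ≤
      3 * ε * ‖ξ‖ := by
  refine (norm_sub_le_norm_sub_add_norm_sub _
    (Polynomial.aeval (modelOp φ a) (s.map (algebraMap ℝ ℂ)) (theta bar L' φ ξ)) _).trans ?_
  have e1 := hq (theta bar L' φ ξ)
  have e2 := poly_model h1 h2 hM s hj hξ
  have e3 := pow_model h1 h2 hM hξ (k := 2 * m) (by omega)
  rw [pow_mul (2 : ℝ) 2 m, show ((2 : ℝ) ^ 2) = 4 by norm_num] at e3
  have e4 := norm_theta_le hM ξ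
  have ht0 : 0 ≤ tail s bs m :=
    div_nonneg (mul_nonneg (mul_nonneg zero_le_two
      (Finset.sum_nonneg fun i _ => abs_nonneg _)) (by positivity)) (by positivity)
  have e5 : tail s bs m * ‖(modelOp φ a ^ (2 * m)) (theta bar L' φ ξ)‖ ≤ ε * ‖ξ‖ := by
    calc _ ≤ tail s bs m * (4 ^ m * ‖ξ‖) := mul_le_mul_of_nonneg_left e3 ht0
      _ ≤ ε * ‖ξ‖ := by
        rw [← mul_assoc]; exact mul_le_mul_of_nonneg_right hts.le (norm_nonneg _)
  have e6 : polyCst s * (Real.sqrt (L' / n : ℝ) * ‖ξ‖) ≤ ε * ‖ξ‖ := by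
    rw [← mul_assoc]; exact mul_le_mul_of_nonneg_right hps.le (norm_nonneg _)
  have e7 : ε * ‖theta bar L' φ ξ‖ ≤ ε * ‖ξ‖ := mul_le_mul_of_nonneg_left e4 hε
  linarith

include h2 in
lemma isSelfAdjoint_modelOp (hM : Model bar L L' n φ) : IsSelfAdjoint (modelOp φ a) := by
  rw [IsSelfAdjoint, modelOp, sumL]
  refine (map_sum (starAddEquiv : (Grp K Γ →L[ℂ] Grp K Γ) ≃+ _) _ _).trans ?_
  refine Fintype.sum_equiv (Function.Involutive.toPerm _ hM.invol') _ _ fun p => ?_
  show star (lam (φ p) (cst (Many ι n) • a p.1)) =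
    lam (φ (manyBar bar n p)) (cst (Many ι n) • a (bar p.1))
  rw [star_lam, hM.inv, h2, star_smul, Complex.star_def, conj_cst]

end

lemma theta_revOp (hM : Model bar L L' n φ) (ξ : Fock K ι L) :
    theta bar L' φ (revOp bar ξ) = invOp (theta bar L' φ ξ) := by
  show emb (manyBar bar n) φ (liftOp n (revOp bar ξ)) = _
  rw [← revOp_liftOp, emb_revOp hM.invol' hM.inv]
  rfl

lemma theta_vac (v : K) :
    theta bar L' φ (vac ι L v) = gdelta v := by
  classical
  show emb (manyBar bar n) φ (liftOp n (vac ι L v)) = _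
  rw [liftOp_vac]
  refine PiLp.ext fun x => ?_
  rw [emb_apply, gdelta_apply, Finset.sum_filter, Finset.sum_eq_single ([] : List (Many ι n))]
  · simp [coefL_vac, Red, eq_comm]
  · intro l _ hl
    simp [coefL_vac, hl]
  · exact fun h => absurd (mem_words.2 (Nat.zero_le _)) h

lemma invOp_gdelta (v : K) : invOp (gdelta v : Grp K Γ) = gdelta v := by
  classical
  refine PiLp.ext fun x => ?_
  rw [invOp_apply, gdelta_apply, gdelta_apply]
  simp only [inv_eq_one]

lemma norm_gdelta (v : K) : ‖(gdelta v : Grp K Γ)‖ = ‖v‖ := by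
  classical
  refine (pow_left_inj₀ (norm_nonneg _) (norm_nonneg _) two_ne_zero).1 ?_
  rw [PiLp.norm_sq_eq_of_L2, Finset.sum_eq_single (1 : Γ)] <;>
    simp +contextual [gdelta_apply]

lemma below_aeval {a : ι → (K →L[ℂ] K)} (p : Polynomial ℝ) {j : ℕ} {ξ : Fock K ι L}
    (hξ : Below j ξ) :
    Below (j + p.natDegree) (Polynomial.aeval (semiL a) (p.map (algebraMap ℝ ℂ)) ξ) := by
  intro l hl
  rw [Polynomial.aeval_eq_sum_range' (Nat.lt_succ_of_le Polynomial.natDegree_map_le),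
    sum_apply, map_sum]
  refine Finset.sum_eq_zero fun k hk => ?_
  rw [smul_apply, map_smul, below_semiL_pow hξ k l
    (by have := Finset.mem_range.1 hk; omega), smul_zero]

/-- The bound on convolution pairs. -/
def ConvLe (A B : StarSubalgebra ℂ (K →L[ℂ] K)) (v : K) (ν : ℝ) : Prop :=
  ∀ (Γ : Type u) [Fintype Γ] [Group Γ] (S T : Grp K Γ →L[ℂ] Grp K Γ),
    IsConv A S → IsConv B T →
    ‖S (invOp (T (invOp (gdelta v)))) - invOp (T (invOp (S (gdelta v))))‖ ≤ ν * (‖S‖ * ‖T‖)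

lemma isConv_modelOp {A : StarSubalgebra ℂ (K →L[ℂ] K)} {a : ι → (K →L[ℂ] K)}
    (ha : ∀ i, a i ∈ A) (φ : Many ι n → Γ) : IsConv A (modelOp φ a) :=
  isConv_sum _ _ fun p _ => isConv_lam (SMulMemClass.smul_mem _ (ha p.1))

lemma norm_le_one_of_unitary {u : K →L[ℂ] K} (hu : star u * u = 1) : ‖u‖ ≤ 1 := by
  have h := CStarRing.norm_star_mul_self (x := u)
  rw [hu] at h
  have h1 : ‖(1 : K →L[ℂ] K)‖ ≤ 1 := ContinuousLinearMap.norm_id_le
  nlinarith [norm_nonneg u]

lemma final_arith {ν cp cr ε η nv w1 w2 w3 nz x y z : ℝ} (hν : 0 ≤ ν) (hcp : 0 ≤ cp)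
    (hcr : 0 ≤ cr) (hε : 0 ≤ ε) (hε1 : ε ≤ 1) (hnv : 0 ≤ nv) (hw1 : 0 ≤ w1) (hw2 : 0 ≤ w2)
    (hw3 : 0 ≤ w3) (hnz : 0 ≤ nz) (main : x ≤ ν * ((cp + 2 * ε) * (cr + 2 * ε)))
    (d1 : y ≤ (cp + 2) * (3 * ε * nv) + 3 * ε * w2)
    (d2 : z ≤ (cr + 2) * (3 * ε * nv) + 3 * ε * w3) (e : nz ≤ x + y + z + ε * nz)
    (h8 : ε * (8 * (ν * (cp + cr + 5) + (cp + cr + 4) * (3 * nv) + w1 + w2 + w3 + nz + 1)) ≤ η) :
    nz ≤ ν * (cp * cr) + η := by
  have g1 : ν * (ε * ε) ≤ ν * ε := mul_le_mul_of_nonneg_left (mul_le_of_le_one_left hε hε1) hν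
  have g2 := mul_nonneg (mul_nonneg hν hε) (add_nonneg hcp hcr)
  have g3 := mul_nonneg (mul_nonneg hε hnv) (add_nonneg hcp hcr)
  linarith [mul_nonneg hν hε, mul_nonneg hε hnv, mul_nonneg hε hw1, mul_nonneg hε hw2,
    mul_nonneg hε hw3, mul_nonneg hε hnz]

theorem testLe_of_convLe {A B : StarSubalgebra ℂ (K →L[ℂ] K)} {v : K} {ν : ℝ} (hν : 0 ≤ ν)
    (hC : ConvLe A B v ν) : TestLe A B v ν := by
  intro ι _ bar a b L p r cp cr hbar ha hb hp hr hdeg
  have h1 : ∀ i, ‖a i‖ ≤ 1 := fun i => norm_le_one_of_unitary (ha i).2.1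
  have h2 : ∀ i, a (bar i) = star (a i) := fun i => (ha i).2.2.2
  set b' : ι → (K →L[ℂ] K) := fun i => b (bar i) with hb'def
  have h1' : ∀ i, ‖b' i‖ ≤ 1 := fun i => norm_le_one_of_unitary (hb _).2.1
  have h2' : ∀ i, b' (bar i) = star (b' i) := fun i => (hb _).2.2.2
  have hbb : ∀ i, bar (bar i) = i := fun i => (hbar i).1
  have hcp : 0 ≤ cp := (abs_nonneg _).trans (hp 0 ⟨by norm_num, by norm_num⟩)
  have hcr : 0 ≤ cr := (abs_nonneg _).trans (hr 0 ⟨by norm_num, by norm_num⟩)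
  set pS := Polynomial.aeval (semiL (L := L) a) (p.map (algebraMap ℝ ℂ)) with hpS
  set rT := Polynomial.aeval (semiL (L := L) b') (r.map (algebraMap ℝ ℂ)) with hrT
  set R := revOp (K := K) (L := L) bar with hR
  have hRR : R * R = 1 := ContinuousLinearMap.ext fun x => revOp_revOp hbb x
  rw [semiR_eq hbb b, aeval_conj hRR]
  set v₀ : Fock K ι L := vac ι L v with hv₀
  set W₂ := R (rT (R v₀)) with hW₂
  set W₁ := pS v₀ with hW₁
  show ‖pS W₂ - R (rT (R W₁))‖ ≤ _
  set z := pS W₂ - R (rT (R W₁)) with hz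
  refine le_of_forall_pos_le_add fun η hη => ?_
  set M := ν * (cp + cr + 5) + (cp + cr + 4) * (3 * ‖v₀‖) + ‖W₁‖ + ‖W₂‖ + ‖R W₁‖ + ‖z‖ + 1
    with hM
  have hM0 : 0 < M := by positivity
  set ε := min 1 (η / (8 * M)) with hε
  have hε0 : 0 < ε := lt_min one_pos (by positivity)
  have hε1 : ε ≤ 1 := min_le_left _ _
  obtain ⟨bp, hbp, hbp'⟩ := exists_wider p hε0 hp
  obtain ⟨br, hbr, hbr'⟩ := exists_wider r hε0 hr
  obtain ⟨m, hm1, hm2, hm3, hm4⟩ : ∃ m, p.natDegree ≤ m ∧ r.natDegree ≤ m ∧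
      tail p bp m * 4 ^ m < ε ∧ tail r br m * 4 ^ m < ε :=
    ((eventually_ge_atTop p.natDegree).and ((eventually_ge_atTop r.natDegree).and
      (((tendsto_tail p hbp).eventually_lt_const hε0).and
        ((tendsto_tail r hbr).eventually_lt_const hε0)))).exists
  set L' := L + 2 * m with hL'
  obtain ⟨n, hn, hn1, hn2, hn3⟩ : ∃ n : ℕ, 0 < n ∧ Real.sqrt (L' / n : ℝ) < ε ∧
      polyCst p * Real.sqrt (L' / n : ℝ) < ε ∧ polyCst r * Real.sqrt (L' / n : ℝ) < ε := by
    have h : Tendsto (fun n : ℕ => Real.sqrt (L' / n : ℝ)) atTop (𝓝 0) := by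
      have h0 := (Real.continuous_sqrt.tendsto _).comp
        (tendsto_const_div_atTop_nhds_zero_nat (L' : ℝ))
      simpa only [Function.comp_def, Real.sqrt_zero] using h0
    exact ((eventually_gt_atTop 0).and ((h.eventually_lt_const hε0).and
      (((by simpa using h.const_mul (polyCst p) : Tendsto _ _ (𝓝 (0 : ℝ))).eventually_lt_const
        hε0).and ((by simpa using h.const_mul (polyCst r) :
          Tendsto _ _ (𝓝 (0 : ℝ))).eventually_lt_const hε0)))).exists
  obtain ⟨Γ, _, _, φ, hφ, hsep⟩ := exists_model (σ := manyBar bar n)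
    (fun x => ⟨Prod.ext (hbb x.1) rfl, fun h => (hbar x.1).2 (congrArg Prod.fst h)⟩) L'
  have hMod : Model bar L L' n φ := ⟨hn, Nat.le_add_right _ _, hbb, hφ, hsep⟩
  set S := modelOp φ a with hS
  set T := modelOp φ b' with hT
  obtain ⟨qp, hqp, hqp'⟩ := exists_clip p (by linarith) hbp'
    (isSelfAdjoint_modelOp h2 hMod) hm1 hε0
  obtain ⟨qr, hqr, hqr'⟩ := exists_clip r (by linarith) hbr'
    (isSelfAdjoint_modelOp h2' hMod) hm2 hε0
  set θ := theta (K := K) (L := L) bar L' φ with hθ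
  set πf := Polynomial.aeval S qp with hπf
  set πg := Polynomial.aeval T qr with hπg
  have hδ : θ v₀ = gdelta v := theta_vac v
  have hbv : Below 0 v₀ := below_vac v
  have hRv : R v₀ = v₀ := revOp_vac bar v
  have hb1 : Below p.natDegree W₁ := zero_add p.natDegree ▸ below_aeval (a := a) p hbv
  have hb2 : Below r.natDegree W₂ := Below.revOp
    (show Below r.natDegree (rT (R v₀)) by
      rw [hRv]; exact zero_add r.natDegree ▸ below_aeval (a := b') r hbv)
  set C₁ := πf (invOp (πg (invOp (gdelta v)))) with hC₁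
  set C₂ := invOp (πg (invOp (πf (gdelta v)))) with hC₂
  have main : ‖C₁ - C₂‖ ≤ ν * ((cp + 2 * ε) * (cr + 2 * ε)) := by
    refine (hC Γ πf πg ((isConv_modelOp (fun i => (ha i).1) φ).aeval qp)
      ((isConv_modelOp (fun i => (hb _).1) φ).aeval qr)).trans ?_
    refine mul_le_mul_of_nonneg_left ?_ hν
    exact mul_le_mul (hqp.trans (by linarith)) (hqr.trans (by linarith)) (norm_nonneg _)
      (by linarith)
  have d1 : ‖C₁ - θ (pS W₂)‖ ≤ (cp + 2) * (3 * ε * ‖v₀‖) + 3 * ε * ‖W₂‖ := by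
    refine (norm_sub_le_norm_sub_add_norm_sub _ (πf (θ W₂)) _).trans (add_le_add ?_
      (clip_model h1 h2 hMod hε0.le hbp hm3 hn2 le_rfl hqp' hb2 (by omega)))
    rw [hC₁, ← map_sub]
    refine (πf.le_opNorm _).trans (mul_le_mul (hqp.trans (by linarith)) ?_ (norm_nonneg _)
      (by linarith))
    rw [invOp_gdelta, ← hδ, hW₂, hR, theta_revOp hMod, ← map_sub, norm_invOp, ← hR, hRv]
    exact clip_model h1' h2' hMod hε0.le hbr hm4 hn3 le_rfl hqr' hbv (by omega)
  have d2 : ‖C₂ - θ (R (rT (R W₁)))‖ ≤ (cr + 2) * (3 * ε * ‖v₀‖) + 3 * ε * ‖R W₁‖ := by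
    rw [hC₂, hR, theta_revOp hMod, ← map_sub, norm_invOp, ← hR]
    refine (norm_sub_le_norm_sub_add_norm_sub _ (πg (θ (R W₁))) _).trans (add_le_add ?_
      (clip_model h1' h2' hMod hε0.le hbr hm4 hn3 le_rfl hqr' hb1.revOp (by omega)))
    rw [← map_sub]
    refine (πg.le_opNorm _).trans (mul_le_mul (hqr.trans (by linarith)) ?_ (norm_nonneg _)
      (by linarith))
    rw [hR, theta_revOp hMod, ← map_sub, norm_invOp, ← hδ]
    exact clip_model h1 h2 hMod hε0.le hbp hm3 hn2 le_rfl hqp' hbv (by omega)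
  have e := norm_le_theta hMod z
  have e' : Real.sqrt (L' / n : ℝ) * ‖z‖ ≤ ε * ‖z‖ :=
    mul_le_mul_of_nonneg_right hn1.le (norm_nonneg _)
  have e'' : ‖θ z‖ ≤ ‖C₁ - C₂‖ + ‖C₁ - θ (pS W₂)‖ + ‖C₂ - θ (R (rT (R W₁)))‖ := by
    rw [hz, map_sub]
    have h3 := norm_sub_le_norm_sub_add_norm_sub (θ (pS W₂)) C₁ C₂
    have h4 := norm_sub_le_norm_sub_add_norm_sub (θ (pS W₂)) C₂ (θ (R (rT (R W₁))))
    rw [norm_sub_rev C₁ (θ (pS W₂))]
    linarith
  have h8 : ε * (8 * M) ≤ η := (le_div_iff₀ (by positivity)).1 (min_le_right _ _)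
  exact final_arith hν hcp hcr hε0.le hε1 (norm_nonneg _) (norm_nonneg _) (norm_nonneg _)
    (norm_nonneg _) (norm_nonneg _) main d1 d2 (by linarith) h8

/-- TEST: the two defects bound the free test on every amplification. -/
theorem testSpec : TestSpec.{u} := by
  intro H _ _ _ P ν hν d hd A B hA hB
  exact testLe_of_convLe hν.pos.le fun Γ _ _ S T hS hT => bridge hν hd hA hB hS hT

end Vale.Agent.P096.Full.Test
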