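import Vale.Agent.P096.Full.Test.Conv
import Vale.Agent.P096.Full.Amp

/-! P096 TEST: the vector defect bounds convolutions over finite groups. -/

open scoped InnerProductSpace ComplexConjugate

namespace Vale.Agent.P096.Full.Test

set_option linter.unusedSectionVars false

universe u

variable {H : Type u} [NormedAddCommGroup H] [InnerProductSpace ℂ H] [CompleteSpace H] {d d' : ℕ}
  {Γ : Type u} [Fintype Γ] [Group Γ]

open Classical in
/-- A vector at the unit. -/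
noncomputable def gdelta {K : Type u} [NormedAddCommGroup K] [InnerProductSpace ℂ K] (v : K) :
    Grp K Γ :=
  WithLp.toLp 2 fun x => if x = 1 then v else 0

open Classical in
lemma gdelta_apply {K : Type u} [NormedAddCommGroup K] [InnerProductSpace ℂ K] (v : K) (x : Γ) :
    gdelta v x = if x = 1 then v else 0 := rfl

variable (e : Fin d' ≃ Γ × Fin d)

/-- The embedding as matrices commuting with translations. -/
noncomputable def wide : Grp (Amp H d) Γ →L[ℂ] Amp H d' :=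
  pack fun p => (((Real.sqrt (Fintype.card Γ))⁻¹ : ℝ) : ℂ) •
    (coord ((e p.1).2, (e p.2).2)).comp
      (PiLp.proj 2 (fun _ : Γ => Amp H d) ((e p.1).1 * (e p.2).1⁻¹))

lemma wide_apply (f : Grp (Amp H d) Γ) (p q : Fin d') :
    wide e f (p, q) = (((Real.sqrt (Fintype.card Γ))⁻¹ : ℝ) : ℂ) •
      f ((e p).1 * (e q).1⁻¹) ((e p).2, (e q).2) := by
  simp [wide]

lemma norm_wide (f : Grp (Amp H d) Γ) : ‖wide e f‖ = ‖f‖ := by
  refine (pow_left_inj₀ (norm_nonneg _) (norm_nonneg _) two_ne_zero).1 ?_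
  have hc : ((Real.sqrt (Fintype.card Γ))⁻¹) ^ 2 * (Fintype.card Γ : ℝ) = 1 := by
    rw [inv_pow, Real.sq_sqrt (Nat.cast_nonneg _), inv_mul_cancel₀]
    exact_mod_cast Fintype.card_ne_zero
  rw [PiLp.norm_sq_eq_of_L2, PiLp.norm_sq_eq_of_L2, Fintype.sum_prod_type]
  simp only [wide_apply, norm_smul, Complex.norm_real, Real.norm_eq_abs, mul_pow, sq_abs,
    ← Finset.mul_sum, PiLp.norm_sq_eq_of_L2]
  rw [← e.symm.sum_comp]
  simp only [← e.symm.sum_comp fun q => ‖_‖ ^ 2, Equiv.apply_symm_apply, Fintype.sum_prod_type]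
  have h : ∀ i k : Fin d, ∑ g : Γ, ∑ h : Γ, ‖f (g * h⁻¹) (i, k)‖ ^ 2 =
      (Fintype.card Γ : ℝ) * ∑ x : Γ, ‖f x (i, k)‖ ^ 2 := by
    intro i k
    rw [Finset.sum_comm, ← nsmul_eq_mul, ← Finset.card_univ, ← Finset.sum_const]
    exact Finset.sum_congr rfl fun h _ =>
      Fintype.sum_equiv (Equiv.mulRight h⁻¹) _ _ fun g => rfl
  calc _ = ((Real.sqrt (Fintype.card Γ))⁻¹) ^ 2 *
        ∑ i : Fin d, ∑ k : Fin d, ∑ g : Γ, ∑ h : Γ, ‖f (g * h⁻¹) (i, k)‖ ^ 2 := by
        congr 1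
        rw [Finset.sum_comm]
        refine Finset.sum_congr rfl fun i _ => ?_
        rw [Finset.sum_comm (s := (Finset.univ : Finset (Fin d)))]
        exact Finset.sum_congr rfl fun g _ => Finset.sum_comm
    _ = ∑ i : Fin d, ∑ k : Fin d, ∑ x : Γ, ‖f x (i, k)‖ ^ 2 := by
        simp only [h, ← Finset.mul_sum]
        rw [← mul_assoc, hc, one_mul]
    _ = _ := by
        rw [Finset.sum_comm (γ := Γ)]
        exact Finset.sum_congr rfl fun i _ => Finset.sum_comm

/-- The large matrix of a left convolution. -/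
def bigL (X : Γ → Mat H d) : Mat H d' :=
  fun p q => X ((e p).1 * (e q).1⁻¹) (e p).2 (e q).2

/-- The large matrix of a right convolution. -/
def bigR (Y : Γ → Mat H d) : Mat H d' :=
  fun p q => Y ((e q).1 * (e p).1⁻¹) (e p).2 (e q).2

lemma leftOp_bigL_wide (X : Γ → Mat H d) (f : Grp (Amp H d) Γ) :
    leftOp (bigL e X) (wide e f) = wide e (convL (fun γ => leftOp (X γ)) f) := by
  refine Amp.ext' fun p q => ?_
  rw [leftOp_apply, wide_apply, convL_apply, WithLp.ofLp_sum, Finset.sum_apply]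
  simp only [leftOp_apply, wide_apply, bigL, map_smul, ← Finset.smul_sum]
  congr 1
  rw [← e.symm.sum_comp, Fintype.sum_prod_type]
  simp only [Equiv.apply_symm_apply]
  refine Fintype.sum_equiv ((Equiv.inv Γ).trans (Equiv.mulLeft (e p).1)) _ _ fun h => ?_
  simp [mul_assoc]

lemma rightOp_bigR_wide (Y : Γ → Mat H d) (f : Grp (Amp H d) Γ) :
    rightOp (bigR e Y) (wide e f) =
      wide e (invOp (convL (fun γ => rightOp (Y γ)) (invOp f))) := by
  refine Amp.ext' fun p q => ?_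
  rw [rightOp_apply, wide_apply, invOp_apply, convL_apply, WithLp.ofLp_sum, Finset.sum_apply]
  simp only [rightOp_apply, wide_apply, invOp_apply, bigR, map_smul, ← Finset.smul_sum]
  congr 1
  rw [← e.symm.sum_comp, Fintype.sum_prod_type]
  simp only [Equiv.apply_symm_apply]
  refine Fintype.sum_equiv ((Equiv.inv Γ).trans (Equiv.mulLeft (e q).1)) _ _ fun h => ?_
  simp [mul_assoc]

lemma norm_leftOp_bigL (hd : 0 < d) (X : Γ → Mat H d) :
    ‖leftOp (bigL e X)‖ ≤ ‖convL fun γ => leftOp (X γ)‖ := by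
  set S := convL fun γ => leftOp (X γ)
  refine ContinuousLinearMap.opNorm_le_bound _ (norm_nonneg _) fun ζ => ?_
  refine le_of_pow_le_pow_left₀ two_ne_zero (by positivity) ?_
  rw [mul_pow, PiLp.norm_sq_eq_of_L2 _ ζ, PiLp.norm_sq_eq_of_L2, Fintype.sum_prod_type,
    Fintype.sum_prod_type, Finset.sum_comm, Finset.sum_comm (f := fun p q => ‖ζ (p, q)‖ ^ 2),
    Finset.mul_sum]
  refine Finset.sum_le_sum fun q _ => ?_
  let k0 : Fin d := ⟨0, hd⟩
  let φ : Grp (Amp H d) Γ := WithLp.toLp 2 fun g => WithLp.toLp 2 fun il =>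
    if il.2 = k0 then ζ (e.symm (g, il.1), q) else 0
  have hφ : ‖φ‖ ^ 2 = ∑ p, ‖ζ (p, q)‖ ^ 2 := by
    rw [PiLp.norm_sq_eq_of_L2, ← e.symm.sum_comp, Fintype.sum_prod_type]
    refine Finset.sum_congr rfl fun g _ => ?_
    rw [PiLp.norm_sq_eq_of_L2, Fintype.sum_prod_type]
    refine Finset.sum_congr rfl fun i _ => ?_
    rw [Finset.sum_eq_single k0] <;> simp +contextual [φ]
  have hS : ∀ p, leftOp (bigL e X) ζ (p, q) = S φ (e p).1 ((e p).2, k0) := by
    intro p
    rw [leftOp_apply, convL_apply, WithLp.ofLp_sum, Finset.sum_apply, ← e.symm.sum_comp,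
      Fintype.sum_prod_type]
    simp only [leftOp_apply, bigL, Equiv.apply_symm_apply]
    refine Fintype.sum_equiv ((Equiv.inv Γ).trans (Equiv.mulLeft (e p).1)) _ _ fun h => ?_
    simp [φ, mul_assoc]
  calc ∑ p, ‖leftOp (bigL e X) ζ (p, q)‖ ^ 2 = ∑ g, ∑ i, ‖S φ g (i, k0)‖ ^ 2 := by
        rw [← e.symm.sum_comp, Fintype.sum_prod_type]
        simp [hS]
    _ ≤ ‖S φ‖ ^ 2 := by
        rw [PiLp.norm_sq_eq_of_L2]
        refine Finset.sum_le_sum fun g _ => ?_
        rw [PiLp.norm_sq_eq_of_L2, Fintype.sum_prod_type]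
        exact Finset.sum_le_sum fun i _ =>
          Finset.single_le_sum (f := fun k => ‖S φ g (i, k)‖ ^ 2) (fun k _ => sq_nonneg _)
            (Finset.mem_univ k0)
    _ ≤ ‖S‖ ^ 2 * ∑ p, ‖ζ (p, q)‖ ^ 2 := by
        rw [← hφ, ← mul_pow]
        exact pow_le_pow_left₀ (norm_nonneg _) (S.le_opNorm φ) 2

lemma norm_rightOp_bigR (hd : 0 < d) (Y : Γ → Mat H d) :
    ‖rightOp (bigR e Y)‖ ≤ ‖convL fun γ => rightOp (Y γ)‖ := by
  set T := convL fun γ => rightOp (Y γ)
  refine ContinuousLinearMap.opNorm_le_bound _ (norm_nonneg _) fun ζ => ?_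
  refine le_of_pow_le_pow_left₀ two_ne_zero (by positivity) ?_
  rw [mul_pow, PiLp.norm_sq_eq_of_L2 _ ζ, PiLp.norm_sq_eq_of_L2, Fintype.sum_prod_type,
    Fintype.sum_prod_type, Finset.mul_sum]
  refine Finset.sum_le_sum fun p _ => ?_
  let k0 : Fin d := ⟨0, hd⟩
  let φ : Grp (Amp H d) Γ := WithLp.toLp 2 fun g => WithLp.toLp 2 fun il =>
    if il.1 = k0 then ζ (p, e.symm (g, il.2)) else 0
  have hφ : ‖φ‖ ^ 2 = ∑ q, ‖ζ (p, q)‖ ^ 2 := by
    rw [PiLp.norm_sq_eq_of_L2, ← e.symm.sum_comp, Fintype.sum_prod_type]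
    refine Finset.sum_congr rfl fun g _ => ?_
    rw [PiLp.norm_sq_eq_of_L2, Fintype.sum_prod_type, Finset.sum_comm]
    refine Finset.sum_congr rfl fun i _ => ?_
    rw [Finset.sum_eq_single k0] <;> simp +contextual [φ]
  have hS : ∀ q, rightOp (bigR e Y) ζ (p, q) = T φ (e q).1 (k0, (e q).2) := by
    intro q
    rw [rightOp_apply, convL_apply, WithLp.ofLp_sum, Finset.sum_apply, ← e.symm.sum_comp,
      Fintype.sum_prod_type]
    simp only [rightOp_apply, bigR, Equiv.apply_symm_apply]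
    refine Fintype.sum_equiv ((Equiv.inv Γ).trans (Equiv.mulLeft (e q).1)) _ _ fun h => ?_
    simp [φ, mul_assoc]
  calc ∑ q, ‖rightOp (bigR e Y) ζ (p, q)‖ ^ 2 = ∑ g, ∑ l, ‖T φ g (k0, l)‖ ^ 2 := by
        rw [← e.symm.sum_comp, Fintype.sum_prod_type]
        simp [hS]
    _ ≤ ‖T φ‖ ^ 2 := by
        rw [PiLp.norm_sq_eq_of_L2]
        refine Finset.sum_le_sum fun g _ => ?_
        rw [PiLp.norm_sq_eq_of_L2, Fintype.sum_prod_type]
        exact Finset.single_le_sum (f := fun i => ∑ l, ‖T φ g (i, l)‖ ^ 2)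
          (fun i _ => Finset.sum_nonneg fun l _ => sq_nonneg _) (Finset.mem_univ k0)
    _ ≤ ‖T‖ ^ 2 * ∑ q, ‖ζ (p, q)‖ ^ 2 := by
        rw [← hφ, ← mul_pow]
        exact pow_le_pow_left₀ (norm_nonneg _) (T.le_opNorm φ) 2

lemma wide_gdelta (P : Pair H) : wide e (gdelta (P.xi d)) = P.xi d' := by
  classical
  have hd' : (d' : ℝ) = (Fintype.card Γ : ℝ) * d := by
    have := Fintype.card_congr e
    rw [Fintype.card_fin, Fintype.card_prod, Fintype.card_fin] at this
    exact_mod_cast this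
  refine Amp.ext' fun p q => ?_
  rw [wide_apply, gdelta_apply]
  by_cases h : p = q
  · subst h
    simp [hd', Real.sqrt_mul (Nat.cast_nonneg _), smul_smul, mul_comm]
  · by_cases hg : (e p).1 = (e q).1
    · have : (e p).2 ≠ (e q).2 := fun h2 => h (e.injective (Prod.ext hg h2))
      simp [hg, this, h]
    · simp [mul_inv_eq_one, hg, h]

/-- The vector defect on a convolution pair. -/
theorem bridge {P : Pair H} {ν : ℝ} (hν : P.NuLe ν) (hd : 0 < d)
    {A B : StarSubalgebra ℂ (Amp H d →L[ℂ] Amp H d)}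
    (hA : ∀ T ∈ A, ∃ X : Mat H d, (∀ i j, X i j ∈ P.M) ∧ T = leftOp X)
    (hB : ∀ T ∈ B, ∃ Y : Mat H d, (∀ i j, Y i j ∈ P.B) ∧ T = rightOp Y)
    {S T : Grp (Amp H d) Γ →L[ℂ] Grp (Amp H d) Γ} (hS : IsConv A S) (hT : IsConv B T) :
    ‖S (invOp (T (invOp (gdelta (P.xi d))))) - invOp (T (invOp (S (gdelta (P.xi d)))))‖ ≤
      ν * (‖S‖ * ‖T‖) := by
  obtain ⟨F, hF, rfl⟩ := hS
  obtain ⟨G, hG, rfl⟩ := hT
  choose X hX hXe using fun γ => hA _ (hF γ)
  choose Y hY hYe using fun γ => hB _ (hG γ)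
  obtain rfl : F = fun γ => leftOp (X γ) := funext hXe
  obtain rfl : G = fun γ => rightOp (Y γ) := funext hYe
  let e := (Fintype.equivFin (Γ × Fin d)).symm
  have h := hν.bound _ (bigL e X) (bigR e Y) (fun p q => hX _ _ _) (fun p q => hY _ _ _)
  rw [sub_apply, comp_mul_apply, comp_mul_apply, ← wide_gdelta e P, leftOp_bigL_wide,
    rightOp_bigR_wide, leftOp_bigL_wide, rightOp_bigR_wide, ← map_sub, norm_wide] at h
  refine h.trans (mul_le_mul_of_nonneg_left ?_ hν.pos.le)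
  exact mul_le_mul (norm_leftOp_bigL e hd X) (norm_rightOp_bigR e hd Y) (norm_nonneg _)
    (norm_nonneg _)

end Vale.Agent.P096.Full.Test
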