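import Vale.Agent.P096.Full.Test.Reduced

/-! P096 TEST: functions on a finite group and the image of the Fock space. -/

open scoped InnerProductSpace ComplexConjugate

namespace Vale.Agent.P096.Full.Test

set_option linter.unusedSectionVars false

universe u

/-- Functions on a group. -/
abbrev Grp (K : Type u) [NormedAddCommGroup K] [InnerProductSpace ℂ K] (Γ : Type u) [Fintype Γ] :
    Type u :=
  PiLp 2 (fun _ : Γ => K)

variable {K : Type u} [NormedAddCommGroup K] [InnerProductSpace ℂ K] [CompleteSpace K]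
  {Γ : Type u} [Fintype Γ] [Group Γ]

/-- An operator from its values at the points. -/
noncomputable def grpOp {E : Type u} [NormedAddCommGroup E] [InnerProductSpace ℂ E]
    (G : Γ → (E →L[ℂ] K)) : E →L[ℂ] Grp K Γ :=
  ((PiLp.continuousLinearEquiv 2 ℂ (fun _ : Γ => K)).symm.toContinuousLinearMap).comp
    (ContinuousLinearMap.pi G)

lemma grpOp_apply {E : Type u} [NormedAddCommGroup E] [InnerProductSpace ℂ E]
    (G : Γ → (E →L[ℂ] K)) (v : E) (x : Γ) : grpOp G v x = G x v := rfl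

/-- A translation with a coefficient. -/
noncomputable def lam (γ : Γ) (T : K →L[ℂ] K) : Grp K Γ →L[ℂ] Grp K Γ :=
  grpOp fun x => T.comp (PiLp.proj 2 (fun _ : Γ => K) (γ⁻¹ * x))

lemma lam_apply (γ : Γ) (T : K →L[ℂ] K) (f : Grp K Γ) (x : Γ) :
    lam γ T f x = T (f (γ⁻¹ * x)) := rfl

lemma lam_mul (γ δ : Γ) (T U : K →L[ℂ] K) : lam γ T * lam δ U = lam (γ * δ) (T * U) := by
  refine ContinuousLinearMap.ext fun f => PiLp.ext fun x => ?_
  show T (U (f (δ⁻¹ * (γ⁻¹ * x)))) = T (U (f ((γ * δ)⁻¹ * x)))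
  rw [mul_inv_rev, mul_assoc]

lemma lam_one : lam (1 : Γ) (1 : K →L[ℂ] K) = 1 := by
  refine ContinuousLinearMap.ext fun f => PiLp.ext fun x => ?_
  simp [lam_apply]

lemma star_lam (γ : Γ) (T : K →L[ℂ] K) : star (lam γ T) = lam γ⁻¹ (star T) := by
  rw [ContinuousLinearMap.star_eq_adjoint, eq_comm, ContinuousLinearMap.eq_adjoint_iff]
  intro f g
  simp only [PiLp.inner_apply, lam_apply, ContinuousLinearMap.star_eq_adjoint,
    ContinuousLinearMap.adjoint_inner_left, inv_inv]
  exact Fintype.sum_equiv (Equiv.mulLeft γ) _ _ fun x => by simp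

/-- A convolution. -/
noncomputable def convL (F : Γ → (K →L[ℂ] K)) : Grp K Γ →L[ℂ] Grp K Γ := ∑ γ, lam γ (F γ)

lemma convL_apply (F : Γ → (K →L[ℂ] K)) (f : Grp K Γ) (x : Γ) :
    convL F f x = ∑ γ, F γ (f (γ⁻¹ * x)) := by
  simp [convL, lam_apply]

lemma convL_mul (F G : Γ → (K →L[ℂ] K)) :
    convL F * convL G = convL fun δ => ∑ γ, F γ * G (γ⁻¹ * δ) := by
  refine ContinuousLinearMap.ext fun f => PiLp.ext fun x => ?_
  show convL F (convL G f) x = _
  simp only [convL_apply, map_sum, sum_apply]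
  conv_rhs => rw [Finset.sum_comm]
  refine Finset.sum_congr rfl fun γ _ => ?_
  refine Fintype.sum_equiv (Equiv.mulLeft γ) _ _ fun δ => ?_
  simp [mul_assoc]

/-- Convolutions with coefficients in `A`. -/
def IsConv (A : StarSubalgebra ℂ (K →L[ℂ] K)) (T : Grp K Γ →L[ℂ] Grp K Γ) : Prop :=
  ∃ F : Γ → (K →L[ℂ] K), (∀ γ, F γ ∈ A) ∧ T = convL F

variable {A : StarSubalgebra ℂ (K →L[ℂ] K)}

lemma isConv_lam {γ : Γ} {T : K →L[ℂ] K} (hT : T ∈ A) : IsConv A (lam γ T) := by
  classical
  refine ⟨fun δ => if δ = γ then T else 0, fun δ => by dsimp only; split_ifs <;> simp [hT], ?_⟩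
  refine ContinuousLinearMap.ext fun f => PiLp.ext fun x => ?_
  rw [convL_apply, lam_apply, Finset.sum_eq_single γ] <;> simp +contextual

lemma IsConv.add {S T : Grp K Γ →L[ℂ] Grp K Γ} (hS : IsConv A S) (hT : IsConv A T) :
    IsConv A (S + T) := by
  obtain ⟨F, hF, rfl⟩ := hS
  obtain ⟨G, hG, rfl⟩ := hT
  refine ⟨fun γ => F γ + G γ, fun γ => add_mem (hF γ) (hG γ), ?_⟩
  refine ContinuousLinearMap.ext fun f => PiLp.ext fun x => ?_
  simp [convL_apply, Finset.sum_add_distrib]

lemma IsConv.smul {S : Grp K Γ →L[ℂ] Grp K Γ} (c : ℂ) (hS : IsConv A S) : IsConv A (c • S) := by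
  obtain ⟨F, hF, rfl⟩ := hS
  refine ⟨fun γ => c • F γ, fun γ => SMulMemClass.smul_mem c (hF γ), ?_⟩
  refine ContinuousLinearMap.ext fun f => PiLp.ext fun x => ?_
  simp [convL_apply, Finset.smul_sum]

lemma IsConv.mul {S T : Grp K Γ →L[ℂ] Grp K Γ} (hS : IsConv A S) (hT : IsConv A T) :
    IsConv A (S * T) := by
  obtain ⟨F, hF, rfl⟩ := hS
  obtain ⟨G, hG, rfl⟩ := hT
  exact ⟨_, fun δ => sum_mem fun γ _ => mul_mem (hF γ) (hG _), convL_mul F G⟩

lemma isConv_one : IsConv A (1 : Grp K Γ →L[ℂ] Grp K Γ) :=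
  lam_one (K := K) (Γ := Γ) ▸ isConv_lam (one_mem A)

lemma isConv_sum {α : Type*} (s : Finset α) (T : α → (Grp K Γ →L[ℂ] Grp K Γ))
    (h : ∀ i ∈ s, IsConv A (T i)) : IsConv A (∑ i ∈ s, T i) :=
  Finset.sum_induction _ _ (fun _ _ => IsConv.add)
    (by rw [← zero_smul ℂ (1 : Grp K Γ →L[ℂ] Grp K Γ)]; exact isConv_one.smul 0) h

lemma IsConv.aeval {S : Grp K Γ →L[ℂ] Grp K Γ} (hS : IsConv A S) (p : Polynomial ℂ) :
    IsConv A (Polynomial.aeval S p) := by
  induction p using Polynomial.induction_on with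
  | C c =>
    rw [Polynomial.aeval_C, Algebra.algebraMap_eq_smul_one]
    exact isConv_one.smul _
  | add p q hp hq => rw [map_add]; exact hp.add hq
  | monomial n c h =>
    rw [pow_succ, ← mul_assoc, map_mul, Polynomial.aeval_X]
    exact h.mul hS

/-- Inversion of the variable. -/
noncomputable def invOp : Grp K Γ →L[ℂ] Grp K Γ :=
  grpOp fun x => PiLp.proj 2 (fun _ : Γ => K) x⁻¹

lemma invOp_apply (f : Grp K Γ) (x : Γ) : invOp f x = f x⁻¹ := rfl

lemma invOp_invOp (f : Grp K Γ) : invOp (invOp f) = f :=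
  PiLp.ext fun x => by simp [invOp_apply]

lemma norm_invOp (f : Grp K Γ) : ‖invOp f‖ = ‖f‖ := by
  refine (pow_left_inj₀ (norm_nonneg _) (norm_nonneg _) two_ne_zero).1 ?_
  rw [PiLp.norm_sq_eq_of_L2, PiLp.norm_sq_eq_of_L2]
  exact Fintype.sum_equiv (Equiv.inv Γ) _ _ fun x => rfl

variable {J : Type u} [Fintype J] {L : ℕ}

open Classical in
/-- The image of a vector on reduced words. -/
noncomputable def emb (σ : J → J) (φ : J → Γ) : Fock K J L →L[ℂ] Grp K Γ :=
  grpOp fun x => ∑ l ∈ (words J L).filter (fun l => Red σ l ∧ (l.map φ).prod = x), coefL l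

open Classical in
lemma emb_apply (σ : J → J) (φ : J → Γ) (ξ : Fock K J L) (x : Γ) :
    emb σ φ ξ x =
      ∑ l ∈ (words J L).filter (fun l => Red σ l ∧ (l.map φ).prod = x), coefL l ξ := by
  simp [emb, grpOp_apply]

/-- Short reduced words have distinct values. -/
def Sep (σ : J → J) (φ : J → Γ) (R : ℕ) : Prop :=
  ∀ l l' : List J, Red σ l → Red σ l' → l.length ≤ R → l'.length ≤ R →
    (l.map φ).prod = (l'.map φ).prod → l = l'

lemma norm_emb {σ : J → J} {φ : J → Γ} (hs : Sep σ φ L) (ξ : Fock K J L) :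
    ‖emb σ φ ξ‖ = ‖projRed σ ξ‖ := by
  classical
  refine (pow_left_inj₀ (norm_nonneg _) (norm_nonneg _) two_ne_zero).1 ?_
  rw [PiLp.norm_sq_eq_of_L2, norm_sq_eq_sum]
  simp only [emb_apply, coefL_projRed]
  have h1 : ∀ x : Γ,
      ‖∑ l ∈ (words J L).filter (fun l => Red σ l ∧ (l.map φ).prod = x), coefL l ξ‖ ^ 2 =
        ∑ l ∈ (words J L).filter (fun l => Red σ l ∧ (l.map φ).prod = x), ‖coefL l ξ‖ ^ 2 := by
    intro x
    rcases Finset.eq_empty_or_nonempty
      ((words J L).filter (fun l => Red σ l ∧ (l.map φ).prod = x)) with h | ⟨l, hl⟩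
    · simp [h]
    · have : (words J L).filter (fun l => Red σ l ∧ (l.map φ).prod = x) = {l} := by
        refine Finset.eq_singleton_iff_unique_mem.2 ⟨hl, fun m hm => ?_⟩
        simp only [Finset.mem_filter, mem_words] at hl hm
        exact hs m l hm.2.1 hl.2.1 hm.1 hl.1 (hm.2.2.trans hl.2.2.symm)
      simp [this]
  simp only [h1]
  simp only [← Finset.filter_filter]
  rw [Finset.sum_fiberwise ((words J L).filter (fun l => Red σ l)) (fun l => (l.map φ).prod)
    fun l => ‖coefL l ξ‖ ^ 2, Finset.sum_filter]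
  exact Finset.sum_congr rfl fun l _ => by split_ifs <;> simp

lemma emb_projRed (σ : J → J) (φ : J → Γ) (ξ : Fock K J L) :
    emb σ φ (projRed σ ξ) = emb σ φ ξ := by
  classical
  refine PiLp.ext fun x => ?_
  rw [emb_apply, emb_apply]
  refine Finset.sum_congr rfl fun l hl => ?_
  rw [coefL_projRed, if_pos (Finset.mem_filter.1 hl).2.1]

lemma prod_rev {σ : J → J} {φ : J → Γ} (hφ : ∀ j, φ (σ j) = (φ j)⁻¹) (l : List J) :
    ((rev σ l).map φ).prod = (l.map φ).prod⁻¹ := by
  induction l with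
  | nil => simp [rev]
  | cons a t ih =>
    rw [show rev σ (a :: t) = rev σ t ++ [σ a] by simp [rev], List.map_append, List.prod_append, ih]
    simp [hφ]

lemma emb_revOp {σ : J → J} {φ : J → Γ} (hb : ∀ i, σ (σ i) = i) (hφ : ∀ j, φ (σ j) = (φ j)⁻¹)
    (ξ : Fock K J L) : emb σ φ (revOp σ ξ) = invOp (emb σ φ ξ) := by
  classical
  refine PiLp.ext fun x => ?_
  rw [invOp_apply, emb_apply, emb_apply]
  refine Finset.sum_nbij' (rev σ) (rev σ) (fun l h => ?_) (fun l h => ?_)
    (fun l _ => rev_rev hb l) (fun l _ => rev_rev hb l) fun l _ => ?_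
  · simp only [Finset.mem_filter, mem_words] at h ⊢
    exact ⟨by rw [length_rev]; exact h.1, (red_rev hb).2 h.2.1, by rw [prod_rev hφ, h.2.2]⟩
  · simp only [Finset.mem_filter, mem_words] at h ⊢
    exact ⟨by rw [length_rev]; exact h.1, (red_rev hb).2 h.2.1,
      by rw [prod_rev hφ, h.2.2, inv_inv]⟩
  · rw [coefL_revOp]

/-- The model of `semiL`. -/
noncomputable def sumL (φ : J → Γ) (a : J → (K →L[ℂ] K)) : Grp K Γ →L[ℂ] Grp K Γ :=
  ∑ j, lam (φ j) (cst J • a j)

lemma sumL_apply (φ : J → Γ) (a : J → (K →L[ℂ] K)) (f : Grp K Γ) (x : Γ) :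
    sumL φ a f x = ∑ j, cst J • a j (f ((φ j)⁻¹ * x)) := by
  simp [sumL, lam_apply]

lemma sumL_emb {σ : J → J} {φ : J → Γ} (hb : ∀ i, σ (σ i) = i) (hφ : ∀ j, φ (σ j) = (φ j)⁻¹)
    {a : J → (K →L[ℂ] K)} (ha : ∀ i, a (σ i) = star (a i)) {k : ℕ} (hk : k < L)
    {ξ : Fock K J L} (hξ : Below k ξ) :
    sumL φ a (emb σ φ ξ) = emb σ φ (semiL a (projRed σ ξ)) := by
  classical
  refine PiLp.ext fun x => ?_
  set cr : J → List J → K := fun j l =>
    if Red σ (j :: l) ∧ φ j * (l.map φ).prod = x then cst J • a j (coefL l ξ) else 0 with hcr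
  set an : J → List J → K := fun j l =>
    if Red σ (σ j :: l) ∧ (l.map φ).prod = x then cst J • a j (coefL (σ j :: l) ξ) else 0 with han
  have hz : ∀ l : List J, L ≤ l.length → coefL l ξ = 0 := fun l hl => hξ l (by omega)
  have hR : emb σ φ (semiL a (projRed σ ξ)) x =
      ∑ j, ∑ l ∈ words J L, (cr j l + an j l) := by
    rw [emb_apply, Finset.sum_filter]
    simp only [coefL_semiL, ite_add_zero]
    rw [Finset.sum_add_distrib, sum_cons _ (by simp [coefL_createL_nil]), Finset.sum_filter,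
      Finset.sum_product]
    simp only [Finset.sum_add_distrib]
    congr 1
    · refine Finset.sum_congr rfl fun j _ => Finset.sum_congr rfl fun l _ => ?_
      simp only [hcr, coefL_createL_cons, coefL_projRed, List.map_cons, List.prod_cons]
      by_cases hl : l.length < L
      · simp only [if_pos hl]
        by_cases hr : Red σ (j :: l) ∧ φ j * (l.map φ).prod = x
        · rw [if_pos hr, if_pos hr, if_pos hr.1.of_cons]
        · rw [if_neg hr, if_neg hr]
      · simp [hl, hz l (not_lt.1 hl)]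
    · rw [Finset.sum_comm (s := (Finset.univ : Finset J))]
      refine Finset.sum_congr rfl fun l _ => ?_
      rw [Finset.smul_sum]
      simp only [han]
      by_cases hr : Red σ l ∧ (l.map φ).prod = x
      · rw [if_pos hr]
        refine Fintype.sum_equiv (Function.Involutive.toPerm σ hb) _ _ fun i => ?_
        simp only [show (Function.Involutive.toPerm σ hb) i = σ i from rfl, hb, ha, coefL_projRed]
        by_cases hi : Red σ (i :: l) <;> simp [hi, hr.2]
      · rw [if_neg hr, Finset.sum_eq_zero fun j _ => if_neg fun h => hr ⟨h.1.of_cons, h.2⟩]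
  rw [hR, sumL_apply]
  refine Finset.sum_congr rfl fun j _ => ?_
  rw [Finset.sum_add_distrib, emb_apply, map_sum, Finset.smul_sum, Finset.sum_filter]
  have split : ∀ l : List J,
      (if Red σ l ∧ (l.map φ).prod = (φ j)⁻¹ * x then cst J • a j (coefL l ξ) else 0) =
        cr j l + if l.head? = some (σ j) ∧ Red σ l ∧ (l.map φ).prod = (φ j)⁻¹ * x
          then cst J • a j (coefL l ξ) else 0 := by
    intro l
    simp only [hcr, red_cons, eq_inv_mul_iff_mul_eq]
    by_cases h1 : l.head? = some (σ j) <;> simp [h1]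
  rw [Finset.sum_congr rfl fun l _ => split l, Finset.sum_add_distrib]
  congr 1
  rw [sum_cons _ (by simp), Finset.sum_filter, Finset.sum_product, Finset.sum_eq_single (σ j)]
  · refine Finset.sum_congr rfl fun l _ => ?_
    simp only [han, List.head?_cons, true_and, List.map_cons, List.prod_cons, hφ, mul_right_inj]
    by_cases hl : l.length < L
    · simp [hl]
    · simp [hl, hz (σ j :: l) (by simp; omega)]
  · intro i _ hi
    simp [hi]
  · simp

end Vale.Agent.P096.Full.Test
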