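import Mathlib

/-! P096 TEST: finite groups in which short reduced words are distinct. -/

namespace Vale.Agent.P096.Full.Test

universe u

variable {J : Type u} (σ : J → J)

/-- No letter is followed by its inverse. -/
def Red (l : List J) : Prop := l.IsChain fun a b => b ≠ σ a

variable {σ}

lemma red_cons {a : J} {l : List J} :
    Red σ (a :: l) ↔ l.head? ≠ some (σ a) ∧ Red σ l := by
  rw [Red, List.isChain_cons]
  constructor
  · rintro ⟨h1, h2⟩
    exact ⟨fun h => h1 _ h rfl, h2⟩
  · rintro ⟨h1, h2⟩
    exact ⟨fun y hy h => h1 (h ▸ hy), h2⟩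

lemma Red.of_cons {a : J} {l : List J} (h : Red σ (a :: l)) : Red σ l := (red_cons.1 h).2

section

open Classical in
/-- Multiplication by a letter, with cancellation. -/
noncomputable def act (σ : J → J) (j : J) (l : List J) : List J :=
  if l.head? = some (σ j) then l.tail else j :: l

lemma act_red {j : J} {l : List J} (h : Red σ l) : Red σ (act σ j l) := by
  unfold act
  split_ifs with hh
  · cases l with
    | nil => simp at hh
    | cons a t => exact h.of_cons
  · exact red_cons.2 ⟨hh, h⟩

lemma act_inv (hσ : ∀ i, σ (σ i) = i) {j : J} {l : List J} (h : Red σ l) :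
    act σ (σ j) (act σ j l) = l := by
  by_cases hh : l.head? = some (σ j)
  · cases l with
    | nil => simp at hh
    | cons a t =>
      simp only [List.head?_cons, Option.some.injEq] at hh
      subst hh
      have := (red_cons.1 h).1
      have e : act σ j (σ j :: t) = t := by simp [act]
      rw [e, act, if_neg this]
  · simp [act, hh, hσ]

variable (σ)

/-- The ball of reduced words. -/
abbrev Ball (R : ℕ) : Type u := {l : List J // Red σ l ∧ l.length ≤ R}

/-- The words that a letter can act on inside the ball. -/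
def Dom (R : ℕ) (j : J) (l : Ball σ R) : Prop := l.1.head? = some (σ j) ∨ l.1.length < R

variable {σ}

lemma act_mem {R : ℕ} {j : J} {l : Ball σ R} (h : Dom σ R j l) :
    (act σ j l.1).length ≤ R := by
  unfold act
  split_ifs with hh
  · simp only [List.length_tail]; exact le_trans (Nat.sub_le _ _) l.2.2
  · simp only [List.length_cons]
    exact (h.resolve_left hh)

lemma act_dom (hσ : ∀ i, σ (σ i) = i) {R : ℕ} {j : J} {l : Ball σ R} (h : Dom σ R j l) :
    Dom σ R (σ j) ⟨act σ j l.1, act_red l.2.1, act_mem h⟩ := by
  by_cases hh : l.1.head? = some (σ j)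
  · right
    show (act σ j l.1).length < R
    have hne : l.1 ≠ [] := fun e => by simp [e] at hh
    simp only [act, if_pos hh, List.length_tail]
    have := l.2.2
    have := List.length_pos_iff.2 hne
    omega
  · left
    simp [act, hh, hσ]

/-- The partial permutation of a letter. -/
noncomputable def actEquiv (hσ : ∀ i, σ (σ i) = i) (R : ℕ) (j : J) :
    {l : Ball σ R // Dom σ R j l} ≃ {l : Ball σ R // Dom σ R (σ j) l} where
  toFun l := ⟨⟨act σ j l.1.1, act_red l.1.2.1, act_mem l.2⟩, act_dom hσ l.2⟩
  invFun l := ⟨⟨act σ (σ j) l.1.1, act_red l.1.2.1, act_mem l.2⟩, by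
    have := act_dom hσ l.2
    rwa [hσ] at this⟩
  left_inv l := Subtype.ext (Subtype.ext (act_inv hσ l.1.2.1))
  right_inv l := Subtype.ext (Subtype.ext (by
    show act σ j (act σ (σ j) l.1.1) = l.1.1
    nth_rw 1 [← hσ j]
    exact act_inv hσ l.1.2.1))

/-- A finite group in which short reduced words have distinct values. -/
theorem exists_model [Fintype J] (hσ : ∀ i, σ (σ i) = i ∧ σ i ≠ i) (R : ℕ) :
    ∃ (Γ : Type u) (_ : Group Γ) (_ : Fintype Γ) (φ : J → Γ),
      (∀ j, φ (σ j) = (φ j)⁻¹) ∧
      ∀ l l' : List J, Red σ l → Red σ l' → l.length ≤ R → l'.length ≤ R →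
        (l.map φ).prod = (l'.map φ).prod → l = l' := by
  classical
  have hinv : ∀ i, σ (σ i) = i := fun i => (hσ i).1
  have : Finite (Ball σ R) :=
    ((List.finite_length_le J R).subset fun l hl => hl.2).to_subtype
  let _ : Fintype (Ball σ R) := Fintype.ofFinite _
  let p : J → Equiv.Perm (Ball σ R) := fun j => (actEquiv hinv R j).extendSubtype
  have hp : ∀ j (l : Ball σ R), Dom σ R j l → (p j l).1 = act σ j l.1 := fun j l h => by
    have := Equiv.extendSubtype_apply_of_mem (actEquiv hinv R j) l h
    rw [show p j l = _ from this]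
    rfl
  let e := Fintype.equivFin J
  let φ : J → Equiv.Perm (Ball σ R) := fun j => if e j < e (σ j) then p j else (p (σ j))⁻¹
  have hφi : ∀ j, φ (σ j) = (φ j)⁻¹ := by
    intro j
    rcases lt_or_gt_of_ne (e.injective.ne (hσ j).2.symm) with h | h
    · simp only [φ, hinv, if_pos h, if_neg (lt_asymm h)]
    · simp only [φ, hinv, if_pos h, if_neg (lt_asymm h), inv_inv]
  have hφ : ∀ j (l : Ball σ R), Dom σ R j l → (φ j l).1 = act σ j l.1 := by
    intro j l h
    simp only [φ]
    split_ifs with hj
    · exact hp j l h
    · let l' : Ball σ R := ⟨act σ j l.1, act_red l.2.1, act_mem h⟩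
      have h' : p (σ j) l' = l := Subtype.ext
        ((hp (σ j) l' (act_dom hinv h)).trans (act_inv hinv l.2.1))
      have h'' : (p (σ j))⁻¹ l = l' := by
        rw [Equiv.Perm.inv_def, Equiv.symm_apply_eq, h']
      rw [h'']
  have key : ∀ (l : List J) (hr : Red σ l) (hl : l.length ≤ R),
      (l.map φ).prod (⟨[], by simp [Red], Nat.zero_le _⟩ : Ball σ R) = ⟨l, hr, hl⟩ := by
    intro l
    induction l with
    | nil => intro hr hl; simp
    | cons a t ih =>
      intro hr hl
      have ht : t.length < R := by simpa using hl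
      rw [List.map_cons, List.prod_cons, Equiv.Perm.mul_apply, ih hr.of_cons ht.le]
      apply Subtype.ext
      rw [hφ a _ (Or.inr ht)]
      simp [act, (red_cons.1 hr).1]
  refine ⟨Equiv.Perm (Ball σ R), inferInstance, inferInstance, φ, hφi,
    fun l l' h h' hl hl' he => ?_⟩
  have := congrArg Subtype.val ((key l h hl).symm.trans ((by rw [he]) : _ = _) |>.trans
    (key l' h' hl'))
  exact this

end

end Vale.Agent.P096.Full.Test
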