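import Vale.Agent.P096.Full.Test.Word
import Vale.Agent.P096.Full.Test.Group

/-! P096 TEST: annihilation, multiplicities, the reduced part and reversal on the Fock space. -/

open scoped InnerProductSpace ComplexConjugate

namespace Vale.Agent.P096.Full.Test

set_option linter.unusedSectionVars false

universe u

variable {K : Type u} [NormedAddCommGroup K] [InnerProductSpace ℂ K] [CompleteSpace K]
  {ι : Type u} [Fintype ι] {L L' : ℕ}

lemma cst_sq : ‖cst ι‖ ^ 2 * (Fintype.card ι : ℝ) ≤ 1 := by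
  rcases Nat.eq_zero_or_pos (Fintype.card ι) with h | h
  · simp [h]
  · rw [cst, Complex.norm_real, Real.norm_eq_abs, sq_abs, inv_pow,
      Real.sq_sqrt (Nat.cast_nonneg _), inv_mul_cancel₀]
    exact_mod_cast h.ne'

lemma conj_cst : conj (cst ι) = cst ι := Complex.conj_ofReal _

lemma sum_words_succ {β : Type*} [AddCommMonoid β] (F : List ι → β) :
    ∑ l ∈ words ι (L + 1), F l = F [] + ∑ i, ∑ t ∈ words ι L, F (i :: t) := by
  classical
  have hnil : ([] : List ι) ∈ words ι (L + 1) := mem_words.2 (Nat.zero_le _)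
  rw [← Finset.add_sum_erase _ _ hnil, ← Finset.sum_product' Finset.univ (words ι L)
    fun i t => F (i :: t)]
  congr 1
  refine (Finset.sum_bij (fun p _ => p.1 :: p.2) ?_ ?_ ?_ fun _ _ => rfl).symm
  · intro p hp
    simp only [Finset.mem_product, mem_words] at hp
    simp only [Finset.mem_erase, ne_eq, List.cons_ne_nil, not_false_eq_true, true_and, mem_words,
      List.length_cons]
    omega
  · rintro ⟨i, l⟩ _ ⟨j, m⟩ _ h
    simpa using h
  · intro l hl
    simp only [Finset.mem_erase, mem_words] at hl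
    cases l with
    | nil => exact absurd rfl hl.1
    | cons i t =>
      exact ⟨(i, t), by simpa [mem_words] using hl.2, rfl⟩

/-- The first letter is annihilated. -/
noncomputable def annihL (a : ι → (K →L[ℂ] K)) : Fock K ι L →L[ℂ] Fock K ι L :=
  opOf fun l => cst ι • ∑ i, (star (a i)).comp (coefL (i :: l))

lemma coefL_annihL (a : ι → (K →L[ℂ] K)) (ξ : Fock K ι L) (l : List ι) :
    coefL l (annihL a ξ) = cst ι • ∑ i, star (a i) (coefL (i :: l) ξ) := by
  rw [annihL, coefL_opOf]
  split_ifs with h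
  · simp
  · have : ∀ i : ι, coefL (i :: l) ξ = 0 := fun i => coefL_of_gt (by simp; omega)
    simp [this]

lemma star_createL (a : ι → (K →L[ℂ] K)) :
    star (createL (L := L) a) = annihL a := by
  rw [ContinuousLinearMap.star_eq_adjoint]
  refine ((ContinuousLinearMap.eq_adjoint_iff _ _).2 fun x y => ?_).symm
  rw [inner_eq_sum, inner_eq_sum, sum_cons (fun l => ⟪coefL l x, coefL l (createL a y)⟫_ℂ)
    (by simp [coefL_createL_nil]), Finset.sum_filter, Finset.sum_product, Finset.sum_comm]
  refine Finset.sum_congr rfl fun l _ => ?_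
  rw [coefL_annihL, inner_smul_left, conj_cst, sum_inner, Finset.mul_sum]
  refine Finset.sum_congr rfl fun i _ => ?_
  rw [coefL_createL_cons]
  split_ifs with h
  · rw [inner_smul_right, ContinuousLinearMap.star_eq_adjoint,
      ContinuousLinearMap.adjoint_inner_left]
  · rw [coefL_of_gt (show L < (i :: l).length by simp only [List.length_cons] at h ⊢; omega)]
    simp

lemma norm_createL_le (a : ι → (K →L[ℂ] K)) (ha : ∀ i, ‖a i‖ ≤ 1) :
    ‖createL (L := L) a‖ ≤ 1 := by
  refine ContinuousLinearMap.opNorm_le_bound _ zero_le_one fun x => ?_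
  rw [one_mul]
  refine le_of_pow_le_pow_left₀ two_ne_zero (norm_nonneg _) ?_
  rw [norm_sq_eq_sum, norm_sq_eq_sum, sum_cons (fun l => ‖coefL l (createL a x)‖ ^ 2)
    (by simp [coefL_createL_nil]), Finset.sum_filter, Finset.sum_product, Finset.sum_comm]
  refine Finset.sum_le_sum fun l _ => ?_
  calc ∑ i, (if l.length < L then ‖coefL (i :: l) (createL a x)‖ ^ 2 else 0)
      ≤ ∑ _i : ι, ‖cst ι‖ ^ 2 * ‖coefL l x‖ ^ 2 := Finset.sum_le_sum fun i _ => by
        split_ifs with h
        · rw [coefL_createL_cons, if_pos h, norm_smul, mul_pow]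
          gcongr
          exact ((a i).le_opNorm _).trans (mul_le_of_le_one_left (norm_nonneg _) (ha i))
        · positivity
    _ = (‖cst ι‖ ^ 2 * Fintype.card ι) * ‖coefL l x‖ ^ 2 := by
        rw [Finset.sum_const, Finset.card_univ, nsmul_eq_mul]; ring
    _ ≤ _ := mul_le_of_le_one_left (by positivity) cst_sq

lemma norm_semiL_le (a : ι → (K →L[ℂ] K)) (ha : ∀ i, ‖a i‖ ≤ 1) :
    ‖semiL (L := L) a‖ ≤ 2 := by
  have h := norm_createL_le (L := L) a ha
  refine (norm_add_le _ _).trans ?_
  rw [ContinuousLinearMap.star_eq_adjoint, LinearIsometryEquiv.norm_map]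
  linarith

/-- Coefficients vanish above length `j`. -/
def Below (j : ℕ) (ξ : Fock K ι L) : Prop := ∀ l : List ι, j < l.length → coefL l ξ = 0

lemma coefL_semiL (a : ι → (K →L[ℂ] K)) (ξ : Fock K ι L) (l : List ι) :
    coefL l (semiL a ξ) =
      coefL l (createL a ξ) + cst ι • ∑ i, star (a i) (coefL (i :: l) ξ) := by
  rw [semiL, add_apply, map_add, star_createL, coefL_annihL]

lemma Below.semiL (a : ι → (K →L[ℂ] K)) {j : ℕ} {ξ : Fock K ι L} (h : Below j ξ) :
    Below (j + 1) (Full.semiL a ξ) := by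
  intro l hl
  have h2 : ∀ i, coefL (i :: l) ξ = 0 := fun i => h _ (by simp; omega)
  rw [coefL_semiL]
  cases l with
  | nil => simp at hl
  | cons i t =>
    have h1 : coefL t ξ = 0 := h _ (by simp only [List.length_cons] at hl; omega)
    rw [coefL_createL_cons]
    simp [h1, h2]

variable (ι) in
/-- The letters with multiplicity. -/
abbrev Many (n : ℕ) : Type u := ι × Fin n

/-- The isometry into letters with multiplicity. -/
noncomputable def liftOp (n : ℕ) : Fock K ι L →L[ℂ] Fock K (Many ι n) L' :=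
  opOf fun l => (((Real.sqrt n)⁻¹ ^ l.length : ℝ) : ℂ) • coefL (l.map Prod.fst)

lemma coefL_liftOp (n : ℕ) (ξ : Fock K ι L) (l : List (Many ι n)) :
    coefL l (liftOp (L' := L') n ξ) =
      if l.length ≤ L' then (((Real.sqrt n)⁻¹ ^ l.length : ℝ) : ℂ) • coefL (l.map Prod.fst) ξ
      else 0 := by
  rw [liftOp, coefL_opOf]
  rfl

lemma cst_many {n : ℕ} :
    cst (Many ι n) = cst ι * (((Real.sqrt n)⁻¹ : ℝ) : ℂ) := by
  rw [cst, cst, ← Complex.ofReal_mul, ← mul_inv, ← Real.sqrt_mul (Nat.cast_nonneg _)]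
  simp

lemma semiL_liftOp {n : ℕ} (hn : 0 < n) (a : ι → (K →L[ℂ] K)) {j : ℕ} (hj : j < L)
    (hL : L ≤ L') {ξ : Fock K ι L} (hξ : Below j ξ) :
    semiL (fun p : Many ι n => a p.1) (liftOp (L' := L') n ξ) = liftOp n (semiL a ξ) := by
  refine ext_coef fun l hl => ?_
  rw [coefL_semiL, coefL_liftOp, if_pos hl, coefL_semiL, smul_add]
  congr 1
  · cases l with
    | nil => simp [coefL_createL_nil]
    | cons p t =>
      have ht : t.length < L' := hl
      rw [List.map_cons, coefL_createL_cons, coefL_createL_cons, if_pos ht, coefL_liftOp,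
        if_pos ht.le]
      simp only [List.length_map, List.length_cons]
      by_cases htL : t.length < L
      · rw [if_pos htL, map_smul, smul_smul, smul_smul, cst_many, pow_succ, Complex.ofReal_mul]
        congr 1
        ring
      · rw [if_neg htL, hξ (t.map Prod.fst) (by simp; omega)]
        simp
  · have hw : (n : ℂ) * ((((Real.sqrt n)⁻¹ : ℝ) : ℂ) * (((Real.sqrt n)⁻¹ : ℝ) : ℂ)) = 1 := by
      rw [← Complex.ofReal_mul, ← mul_inv, Real.mul_self_sqrt (Nat.cast_nonneg _)]
      push_cast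
      exact mul_inv_cancel₀ (Nat.cast_ne_zero.2 hn.ne')
    rw [Fintype.sum_prod_type, Finset.smul_sum, Finset.smul_sum, Finset.smul_sum]
    refine Finset.sum_congr rfl fun i _ => ?_
    have e : ∀ k : Fin n, coefL ((i, k) :: l) (liftOp (L' := L') n ξ) =
        (((Real.sqrt n)⁻¹ ^ (l.length + 1) : ℝ) : ℂ) • coefL (i :: l.map Prod.fst) ξ := by
      intro k
      rw [coefL_liftOp]
      split_ifs with h
      · simp
      · rw [coefL_of_gt (show L < (i :: l.map Prod.fst).length by simp at h ⊢; omega), smul_zero]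
    simp only [e, map_smul, Finset.sum_const, Finset.card_univ, Fintype.card_fin]
    rw [← Nat.cast_smul_eq_nsmul ℂ n, smul_smul, smul_smul, smul_smul, cst_many, pow_succ,
      Complex.ofReal_mul]
    congr 1
    linear_combination (cst ι * (((Real.sqrt n)⁻¹ ^ l.length : ℝ) : ℂ)) * hw

lemma sum_many {n : ℕ} (hn : 0 < n) : ∀ (L : ℕ) (G : List ι → ℝ),
    ∑ l ∈ words (Many ι n) L, ((Real.sqrt n)⁻¹ ^ l.length) ^ 2 * G (l.map Prod.fst) =
      ∑ m ∈ words ι L, G m := by
  intro L
  induction L with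
  | zero =>
    intro G
    rw [show words (Many ι n) 0 = {[]} by ext l; simp [mem_words],
      show words ι 0 = {[]} by ext l; simp [mem_words]]
    simp
  | succ L ih =>
    intro G
    rw [sum_words_succ, sum_words_succ, Fintype.sum_prod_type]
    simp only [List.length_nil, pow_zero, one_pow, one_mul, List.map_nil, List.map_cons,
      List.length_cons]
    congr 1
    refine Finset.sum_congr rfl fun i _ => ?_
    have hw : ((Real.sqrt n)⁻¹) ^ 2 = (n : ℝ)⁻¹ := by
      rw [inv_pow, Real.sq_sqrt (Nat.cast_nonneg _)]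
    simp only [pow_succ _ (List.length _), mul_pow, hw, mul_comm _ (n : ℝ)⁻¹, mul_assoc,
      ← Finset.mul_sum, Finset.sum_const, Finset.card_univ, Fintype.card_fin, nsmul_eq_mul,
      ih fun m => G (i :: m)]
    rw [← mul_assoc, inv_mul_cancel₀ (Nat.cast_ne_zero.2 hn.ne' : (n : ℝ) ≠ 0), one_mul]

lemma norm_liftOp {n : ℕ} (hn : 0 < n) (hL : L ≤ L') (ξ : Fock K ι L) :
    ‖liftOp (L' := L') n ξ‖ = ‖ξ‖ := by
  refine (pow_left_inj₀ (norm_nonneg _) (norm_nonneg _) two_ne_zero).1 ?_
  have e : ∑ l ∈ words ι L, ‖coefL (L := L) l ξ‖ ^ 2 =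
      ∑ l ∈ words ι L', ‖coefL (L := L) l ξ‖ ^ 2 :=
    Finset.sum_subset (fun l h => mem_words.2 ((mem_words.1 h).trans hL)) fun l _ h => by
      rw [coefL_of_gt (ξ := ξ) (not_le.1 fun h' => h (mem_words.2 h'))]; simp
  rw [norm_sq_eq_sum, norm_sq_eq_sum, e,
    ← sum_many hn L' fun m => ‖coefL (L := L) m ξ‖ ^ 2]
  refine Finset.sum_congr rfl fun l hl => ?_
  rw [coefL_liftOp, if_pos (mem_words.1 hl), norm_smul, Complex.norm_real, Real.norm_eq_abs,
    mul_pow, sq_abs]

end Vale.Agent.P096.Full.Test
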