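import Vale.Agent.P096.Full.Test.Fock

/-! P096 TEST: the reduced part and the reversal. -/

open scoped InnerProductSpace ComplexConjugate

namespace Vale.Agent.P096.Full.Test

set_option linter.unusedSectionVars false

universe u

variable {K : Type u} [NormedAddCommGroup K] [InnerProductSpace ℂ K] [CompleteSpace K]
  {ι : Type u} [Fintype ι] {L L' : ℕ}

/-- The barred letters with multiplicity. -/
def manyBar (bar : ι → ι) (n : ℕ) (p : Many ι n) : Many ι n := (bar p.1, p.2)

open Classical in
/-- The part supported on reduced words. -/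
noncomputable def projRed (σ : ι → ι) : Fock K ι L →L[ℂ] Fock K ι L :=
  opOf fun l => if Red σ l then coefL l else 0

open Classical in
lemma coefL_projRed (σ : ι → ι) (ξ : Fock K ι L) (l : List ι) :
    coefL l (projRed σ ξ) = if Red σ l then coefL l ξ else 0 := by
  rw [projRed, coefL_opOf]
  by_cases h : l.length ≤ L
  · rw [if_pos h]; split_ifs <;> rfl
  · rw [if_neg h, coefL_of_gt (ξ := ξ) (not_le.1 h)]; simp

lemma norm_projRed_apply_le (σ : ι → ι) (ξ : Fock K ι L) : ‖projRed σ ξ‖ ≤ ‖ξ‖ := by
  classical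
  refine le_of_pow_le_pow_left₀ two_ne_zero (norm_nonneg _) ?_
  rw [norm_sq_eq_sum, norm_sq_eq_sum]
  refine Finset.sum_le_sum fun l _ => ?_
  rw [coefL_projRed]
  split_ifs
  · exact le_rfl
  · simp

lemma Below.projRed {σ : ι → ι} {j : ℕ} {ξ : Fock K ι L} (h : Below j ξ) :
    Below j (Test.projRed σ ξ) := fun l hl => by
  classical
  rw [coefL_projRed, h l hl]; simp

lemma Below.liftOp {n j : ℕ} {ξ : Fock K ι L} (h : Below j ξ) :
    Below j (Test.liftOp (L' := L') n ξ) := fun l hl => by
  rw [coefL_liftOp, h (l.map Prod.fst) (by simpa using hl)]; simp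

open Classical in
lemma sum_many_bad (bar : ι → ι) {n : ℕ} (hn : 0 < n) : ∀ (L : ℕ) (G : List ι → ℝ), (∀ m, 0 ≤ G m) →
    ∑ l ∈ words (Many ι n) L, (if Red (manyBar bar n) l then 0
      else ((Real.sqrt n)⁻¹ ^ l.length) ^ 2 * G (l.map Prod.fst)) ≤
      (L / n : ℝ) * ∑ m ∈ words ι L, G m := by
  intro L
  have hnil : Red (manyBar bar n) ([] : List (Many ι n)) := by simp [Red]
  induction L with
  | zero =>
    intro G hG
    rw [show words (Many ι n) 0 = {[]} by ext l; simp [mem_words]]
    simp [hnil]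
  | succ L ih =>
    intro G hG
    rw [sum_words_succ, if_pos hnil, zero_add, sum_words_succ, Fintype.sum_prod_type, mul_add]
    refine le_add_of_nonneg_of_le (mul_nonneg (by positivity) (hG _)) ?_
    rw [Finset.mul_sum]
    refine Finset.sum_le_sum fun i _ => ?_
    set Gi : List ι → ℝ := fun m => G (i :: m) with hGi
    set W : List (Many ι n) → ℝ := fun t => ((Real.sqrt n)⁻¹ ^ t.length) ^ 2 * Gi (t.map Prod.fst)
      with hW
    have hW0 : ∀ t, 0 ≤ W t := fun t => mul_nonneg (sq_nonneg _) (hG _)
    have hw : ((Real.sqrt n)⁻¹) ^ 2 = (n : ℝ)⁻¹ := by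
      rw [inv_pow, Real.sq_sqrt (Nat.cast_nonneg _)]
    calc ∑ k : Fin n, ∑ t ∈ words (Many ι n) L, (if Red (manyBar bar n) ((i, k) :: t) then 0
          else ((Real.sqrt n)⁻¹ ^ ((i, k) :: t).length) ^ 2 * G (((i, k) :: t).map Prod.fst))
        ≤ ∑ k : Fin n, ∑ t ∈ words (Many ι n) L, (n : ℝ)⁻¹ *
            ((if t.head? = some (bar i, k) then W t else 0) +
              if Red (manyBar bar n) t then 0 else W t) := by
          refine Finset.sum_le_sum fun k _ => Finset.sum_le_sum fun t _ => ?_
          have hn0 : (0 : ℝ) ≤ (n : ℝ)⁻¹ := by positivity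
          have := hW0 t
          have e : ((Real.sqrt n)⁻¹ ^ (t.length + 1)) ^ 2 * G (i :: t.map Prod.fst) =
              (n : ℝ)⁻¹ * W t := by
            simp only [hW, hGi]
            rw [pow_succ (Real.sqrt n)⁻¹, mul_pow, hw]; ring
          simp only [List.map_cons, List.length_cons, e, red_cons]
          by_cases h1 : t.head? = some (bar i, k) <;>
            by_cases h2 : Red (manyBar bar n) t <;> simp [manyBar, h1, h2] <;> nlinarith
      _ ≤ _ := by
          have h1 : ∀ t : List (Many ι n),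
              ∑ k : Fin n, (if t.head? = some (bar i, k) then W t else 0) ≤ W t := by
            intro t
            by_cases h : ∃ k : Fin n, t.head? = some (bar i, k)
            · obtain ⟨k, hk⟩ := h
              rw [Finset.sum_eq_single k] <;> simp +contextual [hk, eq_comm]
            · rw [Finset.sum_eq_zero fun k _ => if_neg fun hk => h ⟨k, hk⟩]
              exact hW0 t
          have h2 := ih Gi fun m => hG _
          have h3 : ∑ t ∈ words (Many ι n) L, W t = ∑ m ∈ words ι L, Gi m := sum_many hn L Gi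
          have h4 : (0 : ℝ) < n := Nat.cast_pos.2 hn
          simp only [mul_add, Finset.sum_add_distrib, ← Finset.mul_sum, Finset.sum_const,
            Finset.card_univ, Fintype.card_fin, nsmul_eq_mul]
          rw [Finset.sum_comm]
          calc _ ≤ (n : ℝ)⁻¹ * ∑ t ∈ words (Many ι n) L, W t +
                (n : ℝ) * ((n : ℝ)⁻¹ * ((L / n : ℝ) * ∑ m ∈ words ι L, Gi m)) := by
                refine add_le_add (mul_le_mul_of_nonneg_left (Finset.sum_le_sum fun t _ => h1 t)
                  (by positivity)) ?_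
                rw [mul_left_comm]
                exact mul_le_mul_of_nonneg_left (mul_le_mul_of_nonneg_left h2 (inv_nonneg.2 h4.le))
                  h4.le
            _ = _ := by
                rw [h3, hGi]; push_cast; field_simp; ring

lemma norm_sub_projRed (bar : ι → ι) {n : ℕ} (hn : 0 < n) (hL : L ≤ L') (ξ : Fock K ι L) :
    ‖liftOp (L' := L') n ξ - projRed (manyBar bar n) (liftOp n ξ)‖ ^ 2 ≤
      (L' / n : ℝ) * ‖ξ‖ ^ 2 := by
  classical
  have e : ∑ l ∈ words ι L, ‖coefL (L := L) l ξ‖ ^ 2 =
      ∑ l ∈ words ι L', ‖coefL (L := L) l ξ‖ ^ 2 :=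
    Finset.sum_subset (fun l h => mem_words.2 ((mem_words.1 h).trans hL)) fun l _ h => by
      rw [coefL_of_gt (ξ := ξ) (not_le.1 fun h' => h (mem_words.2 h'))]; simp
  rw [norm_sq_eq_sum ξ, e, norm_sq_eq_sum]
  refine le_trans (le_of_eq (Finset.sum_congr rfl fun l hl => ?_))
    (sum_many_bad bar hn L' (fun m => ‖coefL (L := L) m ξ‖ ^ 2) fun m => sq_nonneg _)
  rw [map_sub, coefL_projRed]
  split_ifs with h
  · simp
  · rw [sub_zero, coefL_liftOp, if_pos (mem_words.1 hl), norm_smul, Complex.norm_real,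
      Real.norm_eq_abs, mul_pow, sq_abs]

/-- The reversal of a word, with bars. -/
def rev (bar : ι → ι) (l : List ι) : List ι := (l.map bar).reverse

lemma length_rev (bar : ι → ι) (l : List ι) : (rev bar l).length = l.length := by simp [rev]

lemma rev_rev {bar : ι → ι} (hb : ∀ i, bar (bar i) = i) (l : List ι) :
    rev bar (rev bar l) = l := by
  simp [rev, List.map_reverse, Function.comp_def, hb]

lemma red_rev {bar : ι → ι} (hb : ∀ i, bar (bar i) = i) {l : List ι} :
    Red bar (rev bar l) ↔ Red bar l := by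
  rw [rev, Red, Red, List.isChain_reverse, List.isChain_map]
  constructor <;>
    exact fun h => h.imp fun x y hxy hy => hxy (by simp [hy, hb])

/-- The reversal operator. -/
noncomputable def revOp (bar : ι → ι) : Fock K ι L →L[ℂ] Fock K ι L :=
  opOf fun l => coefL (rev bar l)

lemma coefL_revOp (bar : ι → ι) (ξ : Fock K ι L) (l : List ι) :
    coefL l (revOp bar ξ) = coefL (rev bar l) ξ := by
  rw [revOp, coefL_opOf]
  split_ifs with h
  · rfl
  · exact (coefL_of_gt (by rw [length_rev]; omega)).symm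

lemma revOp_revOp {bar : ι → ι} (hb : ∀ i, bar (bar i) = i) (ξ : Fock K ι L) :
    revOp bar (revOp bar ξ) = ξ :=
  ext_coef fun l _ => by rw [coefL_revOp, coefL_revOp, rev_rev hb]

lemma inner_revOp {bar : ι → ι} (hb : ∀ i, bar (bar i) = i) (ξ η : Fock K ι L) :
    ⟪revOp bar ξ, η⟫_ℂ = ⟪ξ, revOp bar η⟫_ℂ := by
  rw [inner_eq_sum, inner_eq_sum]
  refine Finset.sum_nbij' (rev bar) (rev bar) (fun l h => ?_) (fun l h => ?_)
    (fun l _ => rev_rev hb l) (fun l _ => rev_rev hb l) fun l _ => ?_
  · simpa [mem_words, length_rev] using h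
  · simpa [mem_words, length_rev] using h
  · rw [coefL_revOp, coefL_revOp, rev_rev hb]

lemma norm_revOp {bar : ι → ι} (hb : ∀ i, bar (bar i) = i) (ξ : Fock K ι L) :
    ‖revOp bar ξ‖ = ‖ξ‖ := by
  rw [norm_eq_sqrt_re_inner (𝕜 := ℂ), inner_revOp hb, revOp_revOp hb,
    ← norm_eq_sqrt_re_inner (𝕜 := ℂ)]

lemma Below.revOp {bar : ι → ι} {j : ℕ} {ξ : Fock K ι L} (h : Below j ξ) :
    Below j (Test.revOp bar ξ) := fun l hl => by
  rw [coefL_revOp, h _ (by rwa [length_rev])]

lemma star_revOp {bar : ι → ι} (hb : ∀ i, bar (bar i) = i) :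
    star (revOp (K := K) (L := L) bar) = revOp bar := by
  rw [ContinuousLinearMap.star_eq_adjoint]
  exact ((ContinuousLinearMap.eq_adjoint_iff _ _).2 fun x y => inner_revOp hb x y).symm

lemma createR_eq {bar : ι → ι} (hb : ∀ i, bar (bar i) = i) (b : ι → (K →L[ℂ] K)) :
    createR (L := L) b = revOp bar * createL (fun i => b (bar i)) * revOp bar := by
  refine ContinuousLinearMap.ext fun ξ => ext_coef fun l _ => ?_
  show coefL l (createR b ξ) = coefL l (revOp bar (createL _ (revOp bar ξ)))
  rw [coefL_revOp]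
  induction l using List.reverseRecOn with
  | nil => simp [rev, coefL_createR_nil, coefL_createL_nil]
  | append_singleton t i _ =>
    rw [show rev bar (t ++ [i]) = bar i :: rev bar t by simp [rev], coefL_createR_concat,
      coefL_createL_cons, length_rev, coefL_revOp, rev_rev hb, hb]

lemma semiR_eq {bar : ι → ι} (hb : ∀ i, bar (bar i) = i) (b : ι → (K →L[ℂ] K)) :
    semiR (L := L) b = revOp bar * semiL (fun i => b (bar i)) * revOp bar := by
  rw [semiR, semiL, createR_eq hb, star_mul, star_mul, star_revOp hb]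
  simp only [mul_add, add_mul, mul_assoc]

lemma revOp_liftOp {bar : ι → ι} {n : ℕ} (ξ : Fock K ι L) :
    revOp (manyBar bar n) (liftOp (L' := L') n ξ) = liftOp n (revOp bar ξ) := by
  refine ext_coef fun l hl => ?_
  rw [coefL_revOp, coefL_liftOp, coefL_liftOp, coefL_revOp, length_rev]
  simp [rev, List.map_reverse, manyBar, Function.comp_def]

lemma revOp_projRed {σ : ι → ι} (hb : ∀ i, σ (σ i) = i) (ξ : Fock K ι L) :
    revOp σ (projRed σ ξ) = projRed σ (revOp σ ξ) := by
  classical
  refine ext_coef fun l _ => ?_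
  rw [coefL_revOp, coefL_projRed, coefL_projRed, coefL_revOp]
  simp [red_rev hb]

lemma coefL_vac (v : K) (l : List ι) :
    coefL l (vac ι L v) = if l = [] then v else 0 := by
  by_cases h : l.length ≤ L
  · rw [coefL_of_le h]
    show (if (word l h).1.val = 0 then v else 0) = _
    simp [word]
  · rw [coefL_of_gt (not_le.1 h), if_neg]
    rintro rfl
    simp at h

lemma below_vac (v : K) : Below 0 (vac ι L v) := fun l hl => by
  rw [coefL_vac, if_neg]
  rintro rfl
  simp at hl

lemma revOp_vac (bar : ι → ι) (v : K) : revOp bar (vac ι L v) = vac ι L v := by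
  refine ext_coef fun l _ => ?_
  rw [coefL_revOp, coefL_vac, coefL_vac]
  simp [rev]

lemma liftOp_vac {n : ℕ} (v : K) :
    liftOp (L' := L') n (vac ι L v) = vac (Many ι n) L' v := by
  refine ext_coef fun l hl => ?_
  rw [coefL_liftOp, if_pos hl, coefL_vac, coefL_vac]
  cases l <;> simp

end Vale.Agent.P096.Full.Test
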