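import Vale.Agent.P096.Full.Defs

/-! P096 TEST: the truncated Fock space in list coordinates. -/

open scoped InnerProductSpace

namespace Vale.Agent.P096.Full.Test

set_option linter.unusedSectionVars false

universe u

variable {K : Type u} [NormedAddCommGroup K] [InnerProductSpace ℂ K]
  {ι ι' : Type u} [Fintype ι] [Fintype ι'] {L L' : ℕ}

/-- The list of a word. -/
def wlist (s : Word ι L) : List ι := List.ofFn s.2

lemma length_wlist (s : Word ι L) : (wlist s).length = s.1.val := by simp [wlist]

lemma length_wlist_le (s : Word ι L) : (wlist s).length ≤ L := by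
  rw [length_wlist]; exact Nat.le_of_lt_succ s.1.2

lemma wlist_injective : Function.Injective (wlist : Word ι L → List ι) := by
  rintro ⟨⟨n, hn⟩, f⟩ ⟨⟨m, hm⟩, g⟩ h
  have := List.ofFn_inj'.1 (show List.ofFn f = List.ofFn g from h)
  obtain ⟨rfl, hfg⟩ := Sigma.mk.inj_iff.1 this
  cases hfg
  rfl

/-- The word of a short list. -/
def word (l : List ι) (h : l.length ≤ L) : Word ι L :=
  ⟨⟨l.length, Nat.lt_succ_of_le h⟩, fun i => l[i.val]'i.2⟩

lemma wlist_word (l : List ι) (h : l.length ≤ L) : wlist (word l h) = l := by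
  simp [wlist, word]

lemma word_wlist (s : Word ι L) : word (wlist s) (length_wlist_le s) = s :=
  wlist_injective (wlist_word _ _)

/-- The lists of length at most `L`. -/
noncomputable def words (ι : Type u) [Fintype ι] (L : ℕ) : Finset (List ι) := by
  classical exact (Finset.univ : Finset (Word ι L)).image wlist

lemma mem_words {l : List ι} : l ∈ words ι L ↔ l.length ≤ L := by
  classical
  simp only [words, Finset.mem_image, Finset.mem_univ, true_and]
  exact ⟨by rintro ⟨s, rfl⟩; exact length_wlist_le s, fun h => ⟨word l h, wlist_word l h⟩⟩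

lemma sum_words {β : Type*} [AddCommMonoid β] (F : List ι → β) :
    ∑ l ∈ words ι L, F l = ∑ s : Word ι L, F (wlist s) := by
  classical
  rw [words, Finset.sum_image fun _ _ _ _ h => wlist_injective h]

/-- A coefficient. -/
noncomputable def coefL (l : List ι) : Fock K ι L →L[ℂ] K :=
  if h : l.length ≤ L then PiLp.proj 2 (fun _ : Word ι L => K) (word l h) else 0

lemma coefL_of_le {ξ : Fock K ι L} {l : List ι} (h : l.length ≤ L) :
    coefL l ξ = ξ (word l h) := by
  rw [coefL, dif_pos h]; rfl

lemma coefL_of_gt {ξ : Fock K ι L} {l : List ι} (h : L < l.length) : coefL l ξ = 0 := by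
  rw [coefL, dif_neg (not_le.2 h)]; rfl

lemma coefL_wlist (ξ : Fock K ι L) (s : Word ι L) : coefL (wlist s) ξ = ξ s := by
  rw [coefL_of_le (length_wlist_le s), word_wlist]

lemma ext_coef {ξ η : Fock K ι L}
    (h : ∀ l : List ι, l.length ≤ L → coefL l ξ = coefL l η) : ξ = η := by
  refine PiLp.ext fun s => ?_
  have := h (wlist s) (length_wlist_le s)
  rwa [coefL_wlist, coefL_wlist] at this

/-- An operator from its coefficients. -/
noncomputable def opOf {E : Type u} [NormedAddCommGroup E] [InnerProductSpace ℂ E]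
    (G : List ι → (E →L[ℂ] K)) : E →L[ℂ] Fock K ι L :=
  ((PiLp.continuousLinearEquiv 2 ℂ (fun _ : Word ι L => K)).symm.toContinuousLinearMap).comp
    (ContinuousLinearMap.pi fun s => G (wlist s))

lemma coefL_opOf {E : Type u} [NormedAddCommGroup E] [InnerProductSpace ℂ E]
    (G : List ι → (E →L[ℂ] K)) (x : E) (l : List ι) :
    coefL l (opOf (L := L) G x) = if l.length ≤ L then G l x else 0 := by
  split_ifs with h
  · rw [coefL_of_le h]
    show G (wlist (word l h)) x = _
    rw [wlist_word]
  · exact coefL_of_gt (not_le.1 h)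

lemma inner_eq_sum (ξ η : Fock K ι L) :
    ⟪ξ, η⟫_ℂ = ∑ l ∈ words ι L, ⟪coefL l ξ, coefL l η⟫_ℂ := by
  rw [sum_words, PiLp.inner_apply]
  simp only [coefL_wlist]

lemma norm_sq_eq_sum (ξ : Fock K ι L) : ‖ξ‖ ^ 2 = ∑ l ∈ words ι L, ‖coefL l ξ‖ ^ 2 := by
  rw [sum_words, PiLp.norm_sq_eq_of_L2]
  simp only [coefL_wlist]

open Classical in
lemma sum_cons {β : Type*} [AddCommMonoid β] (F : List ι → β) (hF : F [] = 0) :
    ∑ l ∈ words ι L, F l =
      ∑ p ∈ (Finset.univ ×ˢ words ι L).filter (fun p => p.2.length < L), F (p.1 :: p.2) := by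
  rw [← Finset.sum_filter_of_ne (p := fun l => l ≠ []) fun l _ h e => h (e ▸ hF)]
  refine (Finset.sum_bij (fun p _ => p.1 :: p.2) ?_ ?_ ?_ fun _ _ => rfl).symm
  · intro p hp
    simp only [Finset.mem_filter, Finset.mem_product, Finset.mem_univ, true_and] at hp
    simp only [Finset.mem_filter, ne_eq, List.cons_ne_nil, not_false_eq_true, and_true, mem_words,
      List.length_cons]
    omega
  · rintro ⟨i, l⟩ _ ⟨j, m⟩ _ h
    simpa using h
  · intro l hl
    simp only [Finset.mem_filter, mem_words] at hl
    obtain ⟨hl, hne⟩ := hl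
    cases l with
    | nil => exact absurd rfl hne
    | cons i t =>
      refine ⟨(i, t), ?_, rfl⟩
      simp only [Finset.mem_filter, Finset.mem_product, Finset.mem_univ, true_and, mem_words]
      simp only [List.length_cons] at hl
      omega

/-- The normalisation of the free sum. -/
noncomputable def cst (ι : Type u) [Fintype ι] : ℂ :=
  (((Real.sqrt (Fintype.card ι))⁻¹ : ℝ) : ℂ)

lemma coefL_createL_cons (a : ι → (K →L[ℂ] K)) (ξ : Fock K ι L) (i : ι) (l : List ι) :
    coefL (i :: l) (createL a ξ) = if l.length < L then cst ι • a i (coefL l ξ) else 0 := by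
  split_ifs with h
  · have h' : (i :: l).length ≤ L := h
    rw [coefL_of_le h', coefL_of_le h.le]
    simp [createL, cst, word]
    rfl
  · exact coefL_of_gt (by simp; omega)

lemma coefL_createL_nil (a : ι → (K →L[ℂ] K)) (ξ : Fock K ι L) :
    coefL [] (createL a ξ) = 0 := by
  rw [coefL_of_le (Nat.zero_le _)]
  rfl

lemma coefL_createR_concat (a : ι → (K →L[ℂ] K)) (ξ : Fock K ι L) (i : ι) (l : List ι) :
    coefL (l ++ [i]) (createR a ξ) = if l.length < L then cst ι • a i (coefL l ξ) else 0 := by
  split_ifs with h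
  · have h' : (l ++ [i]).length ≤ L := by simpa using h
    rw [coefL_of_le h', coefL_of_le h.le]
    simp [createR, cst, word]
    refine congrArg _ (congrArg (a i) (congrArg (fun s : Word ι L => ξ s) ?_))
    refine wlist_injective ?_
    rw [show (⟨⟨l.length, Nat.lt_succ_of_le h.le⟩, fun i => l[i.val]'i.2⟩ : Word ι L) = word l h.le
      from rfl, wlist_word]
    refine List.ext_getElem (by simp [length_wlist]) fun n h1 h2 => ?_
    simp [wlist]
  · exact coefL_of_gt (by simp; omega)

lemma coefL_createR_nil (a : ι → (K →L[ℂ] K)) (ξ : Fock K ι L) :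
    coefL [] (createR a ξ) = 0 := by
  rw [coefL_of_le (Nat.zero_le _)]
  rfl

end Vale.Agent.P096.Full.Test
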